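import Vale.Agent.P354BF.Defs

/-!
The a priori estimate (G) at one bounded complex frequency, for the spins 2 and -2.
-/

open Complex (I)
open Vale.Agent.P354BF

noncomputable section

namespace Vale.Agent.P354XN

variable {S : Type} [NormedAddCommGroup S] [InnerProductSpace ℂ S]

/-- The range of the parameters. -/
structure Par (B η M a r0 k : ℝ) (om : ℂ) (m : ℝ) : Prop where
  M0 : 0 < M
  MB : M ≤ B
  aB : |a| ≤ B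
  kB : |k| ≤ B
  oB : ‖om‖ ≤ B
  mB : |m| ≤ B
  im : 0 ≤ om.im
  lo : M + η ≤ r0
  hi : De M a r0 ≤ 0

/-- The outgoing derivative D = d_r - 2 i K / Delta. -/
def Dd (M a : ℝ) (om : ℂ) (m : ℝ) (v : ℝ → S) (r : ℝ) : S :=
  deriv v r - (2 * I * Kf a om m r / De M a r) • v r

/-- The operator r^2 D. -/
def up (M a : ℝ) (om : ℂ) (m : ℝ) (v : ℝ → S) (r : ℝ) : S := (r : ℂ) ^ 2 • Dd M a om m v r

/-- The chain of spin -2. -/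
def c0 (M a : ℝ) (v : ℝ → S) (r : ℝ) : S := ((De M a r : ℂ) ^ 2 / r ^ 3) • v r
def c1 (M a : ℝ) (om : ℂ) (m : ℝ) (v : ℝ → S) : ℝ → S := up M a om m (c0 M a v)
def c2 (M a : ℝ) (om : ℂ) (m : ℝ) (v : ℝ → S) : ℝ → S := up M a om m (c1 M a om m v)
def c3 (M a : ℝ) (om : ℂ) (m : ℝ) (v : ℝ → S) : ℝ → S := Dd M a om m (c2 M a om m v)

/-- The far density and the density of the layer, spin 2. -/
def fp (v : ℝ → S) (r : ℝ) : ℝ := (‖v r‖ ^ 2 + ‖deriv v r‖ ^ 2) / r ^ 7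
def lp (p M a : ℝ) (om : ℂ) (m : ℝ) (v : ℝ → S) (r : ℝ) : ℝ :=
  r ^ p * (r ^ 2 * ‖Dd M a om m v r‖ ^ 2 + ‖v r‖ ^ 2) / r ^ 7

/-- The far density and the density of the layer, spin -2. -/
def fm (M a : ℝ) (om : ℂ) (m : ℝ) (v : ℝ → S) (r : ℝ) : ℝ :=
  ‖c3 M a om m v r‖ ^ 2 / r +
    (‖c2 M a om m v r‖ ^ 2 + ‖c1 M a om m v r‖ ^ 2 + ‖c0 M a v r‖ ^ 2) / r ^ 5
def lm (p M a : ℝ) (om : ℂ) (m : ℝ) (v : ℝ → S) (r : ℝ) : ℝ :=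
  r ^ p * ‖c3 M a om m v r‖ ^ 2 / r

/-- (G) for the spin 2. -/
def GP : Prop := ∀ B η p : ℝ, 0 < η → 0 < p → p < 1 → ∃ X, ∀ x, X ≤ x → ∃ C, 0 ≤ C ∧
  ∀ R, x + 2 ≤ R → ∃ C', 0 ≤ C' ∧ ∀ (S : Type) [NormedAddCommGroup S] [InnerProductSpace ℂ S]
    (A : Ang S), A.Is → |A.s| = 2 → ∀ M a r0 k om m, Par B η M a r0 k om m → ∀ v, A.Sm v →
      W 3 v r0 x + A.WL 2 v r0 x + ∫ r in x..R, fp v r ≤
        C * (W 2 v r0 x + ∫ r in R..2 * R, lp p M a om m v r) +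
          C' * W 2 (A.P 2 k M a om m v) r0 (2 * R)

/-- (G) for the spin -2. -/
def GM : Prop := ∀ B η p : ℝ, 0 < η → 0 < p → p < 1 → ∃ X, ∀ x, X ≤ x → ∃ C, 0 ≤ C ∧
  ∀ R, x + 2 ≤ R → ∃ C', 0 ≤ C' ∧ ∀ (S : Type) [NormedAddCommGroup S] [InnerProductSpace ℂ S]
    (A : Ang S), A.Is → |A.s| = 2 → ∀ M a r0 k om m, Par B η M a r0 k om m → ∀ v, A.Sm v →
      W 3 v r0 x + A.WL 2 v r0 x + ∫ r in x..R, fm M a om m v r ≤
        C * (W 2 v r0 x + ∫ r in R..2 * R, lm p M a om m v r) +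
          C' * W 2 (A.P (-2) k M a om m v) r0 (2 * R)

end Vale.Agent.P354XN
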