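import Vale.Agent.P354XN.Chain

/-!
The estimate (G) for the spin -2.
-/

open scoped ContDiff InnerProductSpace
open Complex (I)
open MeasureTheory Set Filter Topology intervalIntegral Vale.Agent.P354BF

noncomputable section

namespace Vale.Agent.P354XN

variable {B η p r : ℝ}

/-- The data for the spin -2. -/
def Fm (B η p : ℝ) : Fa B η where
  u d := d.c2 d.v
  c1 d := d.c1 d.v
  c0 d := d.c0 d.v
  G d r := (-6 * d.M + 2 * I * d.nu + 6 * d.a ^ 2 * (r : ℂ)⁻¹) • (r : ℂ)⁻¹ • d.c2 d.v r +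
    (-8 * I * d.nu) • d.c1 d.v r + (-12 * d.a ^ 2 : ℂ) • d.c0 d.v r
  H d r := (r : ℂ)⁻¹ ^ 2 • d.c2 (d.P (-2)) r
  β := 0
  k := 0
  w r := r ^ p
  f r := r ^ (-p)
  w1 r := p * r ^ p * r⁻¹
  f1 r := -p * r ^ (-p) * r⁻¹

theorem e_re0 (d : Dt B η) (r : ℝ) : 0 ≤ (d.e 0 r).re := by
  rw [d.e_re, zero_mul, zero_mul, add_zero]; have := d.par.im; positivity

theorem ri_up (d : Dt B η) (h : 4 * B + 1 < r) (c : ℝ → d.S) :
    ri (c r) (deriv c r) ≤ r⁻¹ ^ 2 * (‖c r‖ * ‖up d.M d.a d.om d.m c r‖) := by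
  have k := congrArg Complex.re (d.ka_mu h)
  rw [Complex.re_mul_ofReal, Complex.neg_re] at k
  have k2 : (d.ka r).re ≤ 0 := by
    by_contra c
    nlinarith [e_re0 d r, (d.mu_bd h).2.2.1]
  rw [d.der_up h c, ri_add, ri_smul, ← Complex.ofReal_inv, ← Complex.ofReal_pow, ri_real]
  have := mul_le_mul_of_nonneg_left (ri_le (c r) (up d.M d.a d.om d.m c r)) (sq_nonneg r⁻¹)
  linarith [mul_nonneg (neg_nonneg.2 k2) (sq_nonneg ‖c r‖)]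

theorem bulk_pt {p t w f μ μ1 e y z n A n1 n0 a1 a0 B : ℝ} (p0 : 0 < p) (p1 : p < 1) (t0 : 0 < t)
    (f0 : 0 < f) (w1 : 1 ≤ w) (fw : 24 * f ≤ w) (m0 : 1 / 2 ≤ μ) (m1 : μ ≤ 1) (m2 : 0 ≤ μ1)
    (m3 : μ1 ≤ 2 * B * t ^ 2) (e0 : 0 ≤ e) (tB : 16 * B * t ≤ 1) (t1 : 16 * t ≤ 1)
    (hA : 6 * n ^ 2 ≤ A) (h1 : a1 ≤ t ^ 2 * (n1 * n)) (h0 : a0 ≤ t ^ 2 * (n0 * n1)) :
    p / 8 * (w * t * (y ^ 2 + t ^ 2 * n ^ 2) + f * t * z ^ 2 + t ^ 2 * (n1 ^ 2 + n0 ^ 2)) ≤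
      p * w * t / 2 * y ^ 2 +
      (w * t ^ 2 * e - (p * w * t * μ * t ^ 2 + w * μ1 * t ^ 2 + w * μ * (-2 * t ^ 3)) / 2) * A +
      (f * μ * e - -p * f * t * μ ^ 2 / 2) * z ^ 2 +
      (-p * f * t * μ * t ^ 2 + f * μ1 * t ^ 2 + f * μ * (-2 * t ^ 3)) / 2 * A +
      (t ^ 2 * (n1 ^ 2 + n0 ^ 2) - t * (2 * a1 + 2 * a0)) := by
  have w0 : 0 < w := by linarith
  have A0 : 0 ≤ A := le_trans (by positivity) hA
  have μ0 : 0 < μ := by linarith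
  have b1 := mul_le_mul_of_nonneg_left (by nlinarith : 1 / 2 ≤ (2 - p) * μ)
    (by positivity : 0 ≤ w * t ^ 3 * A)
  have b2 := mul_le_mul_of_nonneg_left (by nlinarith : μ1 ≤ t / 8) (by positivity : 0 ≤ w * t ^ 2 * A)
  have b3 := mul_le_mul_of_nonneg_left ((mul_le_mul_of_nonneg_left (by nlinarith : (p + 2) * μ ≤ 3)
    f0.le).trans (by linarith : _ ≤ w / 8)) (by positivity : 0 ≤ t ^ 3 * A)
  have b4 := mul_le_mul_of_nonneg_left hA (by positivity : 0 ≤ w * t ^ 3)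
  have b5 := mul_le_mul_of_nonneg_left (by nlinarith : 1 / 4 ≤ μ ^ 2)
    (by positivity : 0 ≤ p * f * t * z ^ 2)
  have b6 := mul_le_mul_of_nonneg_left (add_le_add h1 h0) t0.le
  have b7 := mul_nonneg (sq_nonneg t) (sq_nonneg (n1 / 2 - 2 * t * n))
  have b8 := mul_nonneg (sq_nonneg t) (sq_nonneg (n0 - 2 * t * n1))
  have b9 := mul_le_mul_of_nonneg_left (t1.trans w1) (by positivity : 0 ≤ t ^ 3 * n ^ 2)
  have c1 := mul_le_mul_of_nonneg_left (by nlinarith : 8 * t ^ 2 ≤ 1) (sq_nonneg (t * n1))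
  have c2 := mul_le_mul_of_nonneg_left p1.le
    (by positivity : 0 ≤ w * t ^ 3 * n ^ 2 + t ^ 2 * (n1 ^ 2 + n0 ^ 2))
  have q1 : 0 ≤ w * t ^ 2 * e * A := by positivity
  have q2 : 0 ≤ f * μ * e * z ^ 2 := by positivity
  have q3 : 0 ≤ f * μ1 * t ^ 2 * A := by positivity
  have q4 : 0 ≤ p * w * t * y ^ 2 := by positivity
  have q5 : 0 ≤ w * t ^ 3 * n ^ 2 := by positivity
  have q6 : 0 ≤ t ^ 2 * (n1 ^ 2 + n0 ^ 2) := by positivity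
  linarith

theorem Fm_ok (p0 : 0 < p) (p1 : p < 1) : (Fm B η p).Ok (-2) where
  ju := jc2 fun d => d.sm
  j1 := (jc1 fun d => d.sm).mono (by omega)
  j0 := (jc0 _).mono (by omega)
  jH := .smul (Co.inv.pow 2) (jc2 fun d => d.smP (-2))
  hw _ h := der_pow _ h
  hf _ h := der_pow _ h
  f0 r h := Real.rpow_pos_of_pos (by linarith) _
  fw r h := Real.rpow_le_rpow_of_exponent_le h.le (by linarith)
  eq d r h := (E0 d h).trans (by simp [Fm])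
  hG := (((Fm B η p).qu.smul ((((Bc.num (-6)).mul (Bc.cst Co.M)).add ((Bc.num (2 * I)).mul
    (Bc.cst Co.nu))).add (((Bc.num 6).mul (Bc.cst (Co.a.pow 2))).mul Bc.inv))).add
    ((Fm B η p).qc1.smul ((Bc.num (-8 * I)).mul (Bc.cst Co.nu)))).add
    ((Fm B η p).qc0.smul ((Bc.num (-12)).mul (Bc.cst (Co.a.pow 2))))
  bk := ⟨p / 8, by positivity, by
    filter_upwards [eventually_gt_atTop (4 * B + 1), small (16 * B) one_pos, small 16 one_pos,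
      small 24 (by linarith : 0 < 2 * p)] with r h s1 s2 s3 d
    obtain ⟨t0, -, m0, m1, m2, m3⟩ := d.mu_bd h
    have r1 := d.one h
    have r0 : 0 < r := by linarith
    rw [Real.rpow_neg_one] at s1 s2
    have s4 := mul_le_mul_of_nonneg_right s3 (Real.rpow_pos_of_pos r0 p).le
    rw [mul_assoc, ← Real.rpow_add r0, show -(2 * p) + p = -p by ring, one_mul] at s4
    refine (bulk_pt (y := ‖(Fm B η p).Y d r‖) (z := ‖deriv (d.c2 d.v) r‖) p0 p1 t0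
      (Real.rpow_pos_of_pos r0 _) (Real.one_le_rpow r1.le p0.le) s4 m0 m1 m2 m3 (e_re0 d r) s1 s2
      (An_ge d.is d.s2 (d.c2 d.v r)) (ri_up d h (d.c1 d.v)) (ri_up d h (d.c0 d.v))).trans_eq ?_
    simp only [Fa.Bk, Fa.T, Fm, sub_zero, zero_mul, add_zero]⟩
  sm C := by
    filter_upwards [small C (by linarith : 0 < 2 - 2 * p), small C (by linarith : 0 < 1 - p),
      eventually_gt_atTop 0] with r s1 s2 r0
    refine ⟨?_, fun d => mul_le_of_le_one_left (Fa.T0 _ d r) ?_⟩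
    · have := mul_le_mul_of_nonneg_right s1 (Real.rpow_pos_of_pos r0 (-p)).le
      rwa [mul_assoc, ← Real.rpow_add r0, show -(2 - 2 * p) + -p = p + -2 by ring, one_mul,
        Real.rpow_add r0, Real.rpow_neg r0.le 2, Real.rpow_two, ← inv_pow, ← mul_assoc] at this
    · rwa [show -(1 - p) = p + -1 by ring, Real.rpow_add r0, Real.rpow_neg_one, ← mul_assoc] at s2

theorem Fm_Y (d : Dt B η) (h : 4 * B + 1 < r) :
    ‖(Fm B η p).Y d r‖ = d.mu r * ‖c3 d.M d.a d.om d.m d.v r‖ := by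
  have e : (Fm B η p).Y d r = (d.mu r : ℂ) • c3 d.M d.a d.om d.m d.v r := by
    have k := d.ka_mu h
    simp only [Fa.Y, Fm, c3, Dd, ← Dt.ka.eq_1]
    linear_combination (norm := module) k • d.c2 d.v r
  rw [e, norm_smul, Complex.norm_real, Real.norm_eq_abs,
    abs_of_pos (by linarith [(d.mu_bd h).2.2.1])]

theorem Fm_far (p0 : 0 < p) (d : Dt B η) (h : 4 * B + 1 < r) :
    fm d.M d.a d.om d.m d.v r ≤ 4 * (Fm B η p).dn d r := by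
  have r1 := d.one h
  have r0 : 0 < r := by linarith
  obtain ⟨t0, t1, m0, -⟩ := d.mu_bd h
  have w : 1 ≤ r ^ p := Real.one_le_rpow r1.le p0.le
  have e2 : fm d.M d.a d.om d.m d.v r = r⁻¹ * ‖c3 d.M d.a d.om d.m d.v r‖ ^ 2 +
      r⁻¹ ^ 5 * (‖d.c2 d.v r‖ ^ 2 + (‖d.c1 d.v r‖ ^ 2 + ‖d.c0 d.v r‖ ^ 2)) := by rw [fm]; ring
  have b0 := mul_le_mul w (by nlinarith : 1 / 4 ≤ d.mu r ^ 2) (by norm_num) (by linarith)
  have b1 := mul_le_mul_of_nonneg_left (by linarith : 1 ≤ 4 * (r ^ p * d.mu r ^ 2))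
    (by positivity : 0 ≤ r⁻¹ * ‖c3 d.M d.a d.om d.m d.v r‖ ^ 2)
  have b2 := mul_le_mul_of_nonneg_left ((pow_le_one₀ t0.le t1 : r⁻¹ ^ 2 ≤ 1).trans w)
    (by positivity : 0 ≤ r⁻¹ ^ 3 * ‖d.c2 d.v r‖ ^ 2)
  have b3 := mul_le_mul_of_nonneg_left (pow_le_one₀ t0.le t1 : r⁻¹ ^ 3 ≤ 1)
    (by positivity : 0 ≤ r⁻¹ ^ 2 * (‖d.c1 d.v r‖ ^ 2 + ‖d.c0 d.v r‖ ^ 2))
  have b4 : 0 ≤ r ^ (-p) * r⁻¹ * ‖deriv (d.c2 d.v) r‖ ^ 2 := by positivity
  have b5 : 0 ≤ r ^ p * r⁻¹ ^ 3 * ‖d.c2 d.v r‖ ^ 2 := by positivity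
  have b6 : 0 ≤ r⁻¹ ^ 2 * (‖d.c1 d.v r‖ ^ 2 + ‖d.c0 d.v r‖ ^ 2) := by positivity
  rw [e2, Fa.dn, Fm_Y d h]
  simp only [Fa.T, Fm]
  linarith

theorem Fm_lay (p0 : 0 < p) (d : Dt B η) (h : 4 * B + 1 < r) :
    (Fm B η p).Q d r ≤ 1 * (r * lm p d.M d.a d.om d.m d.v r) := by
  have r1 := d.one h
  have r0 : 0 < r := by linarith
  obtain ⟨t0, -, m0, m1, -⟩ := d.mu_bd h
  have μ0 : 0 < d.mu r := by linarith
  have fw : r ^ (-p) ≤ r ^ p := Real.rpow_le_rpow_of_exponent_le r1.le (by linarith)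
  have A0 := An_nonneg (A := d.A) (d.c2 d.v r)
  have b1 := mul_le_mul_of_nonneg_right fw
    (by positivity : 0 ≤ d.mu r * r⁻¹ ^ 2 * An d.A (d.c2 d.v r))
  have b2 := mul_le_mul_of_nonneg_left (pow_le_one₀ μ0.le m1 : d.mu r ^ 2 ≤ 1)
    (by positivity : 0 ≤ r ^ p * ‖c3 d.M d.a d.om d.m d.v r‖ ^ 2)
  have b3 : 0 ≤ r ^ (-p) * d.mu r ^ 2 * ‖deriv (d.c2 d.v) r‖ ^ 2 := by positivity
  have b4 : 0 ≤ r ^ p * ‖c3 d.M d.a d.om d.m d.v r‖ ^ 2 := by positivity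
  have b5 : 0 ≤ r⁻¹ * (‖d.c1 d.v r‖ ^ 2 + ‖d.c0 d.v r‖ ^ 2) := by positivity
  rw [lm, mul_div_cancel₀ _ r0.ne', Fa.Q, Fm_Y d h]
  simp only [Fa.T, Fm]
  linarith

theorem Fm_low (p0 : 0 < p) (y : ℝ) : ∃ K, 0 ≤ K ∧ ∀ (d : Dt B η) r, 4 * B + 1 < r → r ≤ y →
    ‖d.v r‖ ^ 2 + ‖deriv d.v r‖ ^ 2 ≤ K * (Fm B η p).dn d r := by
  have cg : Co fun (d : Dt B η) r => (r : ℂ) ^ 3 * (De d.M d.a r : ℂ)⁻¹ ^ 2 :=
    (Co.id.pow 3).mul (Co.inD.pow 2)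
  obtain ⟨g1, h1, h2⟩ := cg.der
  obtain ⟨K0, k0, b0⟩ := cg.bd y
  obtain ⟨K1, k1, b1⟩ := (cg.mul (Co.inv.pow 2)).bd y
  obtain ⟨K2, k2, b2⟩ := ((cg.mul Co.ka).add h1).bd y
  refine ⟨(K0 ^ 2 + 2 * K1 ^ 2 + 2 * K2 ^ 2) * (|y| ^ 5 * 4), by positivity, fun d r h hy => ?_⟩
  have r0 : 0 < r := by linarith [d.one h]
  have e : ∀ t, 4 * B + 1 < t → d.v t = ((t : ℂ) ^ 3 * (De d.M d.a t : ℂ)⁻¹ ^ 2) • d.c0 d.v t :=
    fun t ht => by
      have := d.r_ne ht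
      have := d.De_ne ht
      rw [Dt.c0, c0, smul_smul, show (t : ℂ) ^ 3 * (De d.M d.a t : ℂ)⁻¹ ^ 2 *
        ((De d.M d.a t : ℂ) ^ 2 / t ^ 3) = 1 by field_simp, one_smul]
  have e1 := (((h2 d r h).fun_smul ((jc0 _).dw (fun d => d.sm) d h).has).congr_of_eventuallyEq
    ((ev h).mono e)).deriv
  rw [d.der_up h (d.c0 d.v), smul_add, smul_smul, smul_smul, add_assoc, ← add_smul] at e1
  have a0 : ‖d.v r‖ ≤ K0 * ‖d.c0 d.v r‖ := (congrArg norm (e r h)).trans_le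
    ((norm_smul_le _ _).trans (mul_le_mul_of_nonneg_right (b0 d r h hy) (norm_nonneg _)))
  have a1 := pow_le_pow_left₀ (norm_nonneg _) ((norm_smul_le _ (d.c1 d.v r)).trans
    (mul_le_mul_of_nonneg_right (b1 d r h hy) (norm_nonneg _))) 2
  have a2 : ‖deriv d.v r‖ ^ 2 ≤ _ := (congrArg (fun z => ‖z‖ ^ 2) e1).trans_le (sq_G
    ((norm_smul_le _ _).trans (mul_le_mul_of_nonneg_right (b2 d r h hy) (norm_nonneg _))))
  have a3 := pow_le_pow_left₀ (norm_nonneg _) a0 2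
  have a4 : ‖d.c1 d.v r‖ ^ 2 + ‖d.c0 d.v r‖ ^ 2 ≤ r ^ 5 * fm d.M d.a d.om d.m d.v r := by
    rw [fm, mul_add, mul_div_cancel₀ _ (by positivity)]
    have : 0 ≤ r ^ 5 * (‖c3 d.M d.a d.om d.m d.v r‖ ^ 2 / r) := by positivity
    linarith [sq_nonneg ‖d.c2 d.v r‖]
  have a5 := a4.trans (mul_le_mul (pow_le_pow_left₀ r0.le (hy.trans (le_abs_self _)) 5)
    (Fm_far p0 d h) (by rw [fm]; positivity) (by positivity))
  have a6 := mul_le_mul_of_nonneg_left a5 (by positivity : 0 ≤ K0 ^ 2 + 2 * K1 ^ 2 + 2 * K2 ^ 2)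
  have a7 : 0 ≤ (K0 ^ 2 + 2 * K2 ^ 2) * ‖d.c1 d.v r‖ ^ 2 + 2 * K1 ^ 2 * ‖d.c0 d.v r‖ ^ 2 := by
    positivity
  have a8 : up d.M d.a d.om d.m (d.c0 d.v) r = d.c1 d.v r := rfl
  rw [a8] at a2
  linarith

/-- (G) for the spin -2. -/
theorem gm : GM := fun B η p hη p0 p1 => by
  have sm := fun d : Dt B η => d.sm
  obtain ⟨X, hX⟩ := (Fm_ok (B := B) (η := η) p0 p1).main hη (by norm_num)
    (fd := fun d => fm d.M d.a d.om d.m d.v) (ld := fun d => lm p d.M d.a d.om d.m d.v)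
    (fun d x y h => (((((jc2 sm).Dd sm).cont sm d h).norm.pow 2).div continuousOn_id
      fun r hr => by simp only [id]; linarith [d.one h, hr.1]).add
      ((((((jc2 sm).cont sm d h).norm.pow 2).add (((jc1 sm).cont sm d h).norm.pow 2)).add
        (((jc0 _).cont sm d h).norm.pow 2)).div (continuousOn_pow 5)
          fun r hr => pow_ne_zero _ (by linarith [d.one h, hr.1])))
    (fun d x y h => ((cont_pow p (by linarith [d.one h])).mul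
      ((((jc2 sm).Dd sm).cont sm d h).norm.pow 2)).div continuousOn_id
        fun r hr => ne_of_gt (by linarith [d.one h, hr.1] : 0 < r))
    (fun d r h => by rw [lm]; positivity) ⟨4, by norm_num, fun d r => Fm_far p0 d⟩
    ⟨1, by norm_num, fun d r => Fm_lay p0 d⟩ (Fm_low p0)
  refine ⟨X, fun x hx => (hX x hx).imp fun C h => ⟨h.1, fun R hR => (h.2 R hR).imp fun C' h =>
    ⟨h.1, fun S _ _ A hA hs M a r0 k om m par v sm =>
      h.2 ⟨S, A, hA, hs, M, a, r0, k, om, m, par, v, sm⟩⟩⟩⟩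

end Vale.Agent.P354XN
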