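import Vale.Agent.P354XN.Asm

/-!
The estimate (G) for the spin 2.
-/

open scoped ContDiff InnerProductSpace
open Complex (I)
open MeasureTheory Set Filter Topology intervalIntegral Vale.Agent.P354BF

noncomputable section

namespace Vale.Agent.P354XN

variable {B η p r : ℝ}

theorem der_pow (q : ℝ) (h : 0 < r) : HasDerivAt (fun t : ℝ => t ^ q) (q * r ^ q * r⁻¹) r :=
  (Real.hasDerivAt_rpow_const (Or.inl h.ne')).congr_deriv (by
    rw [Real.rpow_sub_one h.ne']; ring)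

theorem Dt.De_eq (d : Dt B η) (h : r ≠ 0) : (De d.M d.a r : ℂ) = r ^ 2 * d.mu r := by
  have : (r : ℂ) ≠ 0 := Complex.ofReal_ne_zero.2 h
  simp only [De, Dt.mu]; push_cast; field_simp

theorem Dt.mu_ne (d : Dt B η) (h : 4 * B + 1 < r) : (d.mu r : ℂ) ≠ 0 :=
  Complex.ofReal_ne_zero.2 (by linarith [(d.mu_bd h).2.2.1])

theorem norm_cinv (h : 0 < r) : ‖(r : ℂ)⁻¹‖ = r⁻¹ := by
  rw [← Complex.ofReal_inv, Complex.norm_real, Real.norm_eq_abs, abs_of_pos (inv_pos.2 h)]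

theorem small (C : ℝ) {q : ℝ} (hq : 0 < q) : ∀ᶠ r : ℝ in atTop, C * r ^ (-q) ≤ 1 :=
  ((tendsto_rpow_neg_atTop hq).const_mul C).eventually (ge_mem_nhds (by simp))

/-- The data for the spin 2. -/
def Fp (B η p : ℝ) : Fa B η where
  u d r := (r : ℂ)⁻¹ ^ 3 • d.v r
  c1 d r := (0 : ℂ) • d.v r
  c0 d r := (0 : ℂ) • d.v r
  G d r := (6 * d.M + -6 * d.a ^ 2 * (r : ℂ)⁻¹ + -6 * I * d.nu) • (r : ℂ)⁻¹ • (r : ℂ)⁻¹ ^ 3 • d.v r +
    (4 * d.M + -4 * d.a ^ 2 * (r : ℂ)⁻¹) • deriv (fun t : ℝ => (t : ℂ)⁻¹ ^ 3 • d.v t) r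
  H d r := (r : ℂ)⁻¹ ^ 5 • d.P 2 r
  β := 4
  k := -2
  w r := r ^ (p + 2)
  f r := r ^ (p + 2)
  w1 r := (p + 2) * r ^ (p + 2) * r⁻¹
  f1 r := (p + 2) * r ^ (p + 2) * r⁻¹

theorem Fp_T (d : Dt B η) (r : ℝ) : (Fp B η p).T d r = 0 := by simp [Fa.T, Fp]

theorem Fp_d1 (d : Dt B η) (h : r ≠ 0) : deriv (fun t : ℝ => (t : ℂ)⁻¹ ^ 3 • d.v t) r =
    (r : ℂ)⁻¹ ^ 3 • deriv d.v r + (-3 * (r : ℂ)⁻¹ ^ 4) • d.v r := by
  rw [(((der_cinv h).fun_pow 3).fun_smul (d.sm.has r)).deriv]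
  congr 2; simp; ring

theorem Fp_d2 (d : Dt B η) (h : r ≠ 0) : deriv (deriv fun t : ℝ => (t : ℂ)⁻¹ ^ 3 • d.v t) r =
    (r : ℂ)⁻¹ ^ 3 • deriv (deriv d.v) r + (-6 * (r : ℂ)⁻¹ ^ 4) • deriv d.v r +
      (12 * (r : ℂ)⁻¹ ^ 5) • d.v r := by
  rw [((((((der_cinv h).fun_pow 3).fun_smul ((d.is.sm_deriv d.sm).has r)).fun_add
    ((((der_cinv h).fun_pow 4).const_mul (-3)).fun_smul (d.sm.has r)))).congr_of_eventuallyEq
      ((eventually_ne_nhds h).mono fun t ht => Fp_d1 d ht)).deriv]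
  simp only [Nat.cast_ofNat, Nat.add_one_sub_one]
  module

theorem Fp_Y (d : Dt B η) (h : 4 * B + 1 < r) : (Fp B η p).Y d r =
    (d.mu r * (r : ℂ)⁻¹ ^ 3) • (Dd d.M d.a d.om d.m d.v r + (r : ℂ)⁻¹ • d.v r) := by
  have r0 : r ≠ 0 := by linarith [d.one h]
  have := d.r_ne h
  have := d.mu_ne h
  simp only [Fa.Y, Fp, Fp_d1 d r0, Dd, d.De_eq r0, Dt.e, Dt.nu, Kf]
  match_scalars
  · ring
  · field_simp; ring

theorem Fp_ok (p0 : 0 < p) (p1 : p < 1) : (Fp B η p).Ok 2 where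
  ju := .smul (Co.inv.pow 3) ((Jt.zero _).mono (by omega))
  j1 := .smul (Co.num 0) ((Jt.zero _).mono (by omega))
  j0 := .smul (Co.num 0) ((Jt.zero _).mono (by omega))
  jH := .smul (Co.inv.pow 5) ((Jt.zero _).mono (by omega))
  hw _ h := der_pow _ h
  hf _ h := der_pow _ h
  f0 r h := Real.rpow_pos_of_pos (by linarith) _
  fw _ _ := le_rfl
  eq d r h := by
    have r0 : r ≠ 0 := by linarith [d.one h]
    have := d.r_ne h
    simp only [Fp, Fp_d1 d r0, Fp_d2 d r0, Dt.P, Ang.P, De, Dt.e, Dt.nu, Dt.mu, Dt.mu1, Kf, map_smul]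
    match_scalars <;> field_simp <;> ring
  hG := ((Fp B η p).qu.smul (((((Bc.num 6).mul (Bc.cst Co.M)).add (((Bc.num (-6)).mul
    (Bc.cst (Co.a.pow 2))).mul Bc.inv)).add ((Bc.num (-6 * I)).mul (Bc.cst Co.nu))))).add
    ((Fp B η p).q1.smul (((Bc.num 4).mul (Bc.cst Co.M)).add (((Bc.num (-4)).mul
      (Bc.cst (Co.a.pow 2))).mul Bc.inv)))
  bk := ⟨p / 2, by positivity, (eventually_gt_atTop (4 * B + 1)).mono fun r h d => by
    obtain ⟨t0, -, m0, -, m1, -⟩ := d.mu_bd h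
    have W0 : 0 < r ^ (p + 2) := Real.rpow_pos_of_pos (by linarith [d.one h]) _
    have a := An_ge d.is d.s2 ((Fp B η p).u d r)
    have e : 4 * d.mu r * r⁻¹ ≤ (d.e 4 r).re := by
      rw [d.e_re]; have := d.par.im; exact le_add_of_nonneg_left (by positivity)
    have μ0 : 0 < d.mu r := by linarith
    have z : ∀ x : d.S, ri ((0 : ℂ) • d.v r) x = 0 := fun x => by simp [ri]
    rw [Fa.dn, Fa.Bk, Fp_T]
    generalize ‖(Fp B η p).Y d r‖ = y at *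
    generalize ‖deriv ((Fp B η p).u d) r‖ = v at *
    generalize An d.A ((Fp B η p).u d r) = A at *
    generalize ‖(Fp B η p).u d r‖ = n at *
    simp only [Fp, z]
    generalize r ^ (p + 2) = W at *
    generalize r⁻¹ = t at *
    have b1 : 0 ≤ W * t ^ 2 * (d.e 4 r).re * (A - 6 * n ^ 2) :=
      mul_nonneg (mul_nonneg (by positivity) (le_trans (by positivity) e)) (by linarith)
    have b2 := mul_le_mul_of_nonneg_left e (by positivity : 0 ≤ W * d.mu r * v ^ 2)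
    have b3 := mul_le_mul_of_nonneg_left m0 (by positivity : 0 ≤ p * W * t ^ 3 * n ^ 2)
    have b4 := mul_le_mul_of_nonneg_left (by nlinarith : p / 2 ≤ (3 - p / 2) * d.mu r ^ 2)
      (by positivity : 0 ≤ W * t * v ^ 2)
    have b5 : 0 ≤ W * d.mu1 r * t ^ 2 * n ^ 2 := by positivity
    have b6 : 0 ≤ W * t * y ^ 2 := by positivity
    have b7 : 0 ≤ p * W * t ^ 3 * n ^ 2 := by positivity
    linarith⟩
  sm C := by
    filter_upwards [small C two_pos, eventually_gt_atTop 0] with r h r0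
    refine ⟨?_, fun d => by rw [Fp_T, mul_zero]⟩
    rw [Real.rpow_neg r0.le, Real.rpow_two, ← inv_pow] at h
    have := mul_le_mul_of_nonneg_left h (Real.rpow_pos_of_pos r0 (p + 2)).le
    simp only [Fp]
    linarith

theorem Fp_far (p0 : 0 < p) (d : Dt B η) (h : 4 * B + 1 < r) :
    fp d.v r ≤ 19 * (Fp B η p).dn d r := by
  have r1 := d.one h
  have r0 : 0 < r := by linarith
  have := d.r_ne h
  obtain ⟨t0, t1, -⟩ := d.mu_bd h
  have e : (r : ℂ)⁻¹ ^ 3 • deriv d.v r =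
      deriv ((Fp B η p).u d) r + (3 * (r : ℂ)⁻¹) • (Fp B η p).u d r := by
    simp only [Fp, Fp_d1 d r0.ne']; module
  have a := sq_G (P := deriv ((Fp B η p).u d) r) (Z := (3 * (r : ℂ)⁻¹) • (Fp B η p).u d r)
    (u := (Fp B η p).u d r) (K := 3) (by
      rw [norm_smul, norm_mul, norm_cinv r0, Complex.norm_ofNat]; gcongr; linarith)
  have b : ‖(Fp B η p).u d r‖ = r⁻¹ ^ 3 * ‖d.v r‖ := by
    simp only [Fp]; rw [norm_smul, norm_pow, norm_cinv r0]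
  rw [← e, norm_smul, norm_pow, norm_cinv r0] at a
  have w : 1 ≤ r ^ (p + 2) * r⁻¹ ^ 2 := by
    rw [Real.rpow_add r0, Real.rpow_two, mul_assoc, ← mul_pow, mul_inv_cancel₀ r0.ne', one_pow,
      mul_one]
    exact Real.one_le_rpow r1.le p0.le
  have w' : 1 ≤ r ^ (p + 2) := Real.one_le_rpow r1.le (by linarith)
  have e2 : fp d.v r = r⁻¹ * ((r⁻¹ ^ 3 * ‖d.v r‖) ^ 2 + (r⁻¹ ^ 3 * ‖deriv d.v r‖) ^ 2) := by
    rw [fp]; ring
  rw [e2, Fa.dn, Fp_T, ← b]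
  have b1 := mul_le_mul_of_nonneg_left a t0.le
  have b2 := mul_le_mul_of_nonneg_left w (by positivity : 0 ≤ r⁻¹ * ‖(Fp B η p).u d r‖ ^ 2)
  have b3 := mul_le_mul_of_nonneg_left w' (by positivity : 0 ≤ r⁻¹ * ‖deriv ((Fp B η p).u d) r‖ ^ 2)
  have b4 : 0 ≤ r ^ (p + 2) * r⁻¹ * ‖(Fp B η p).Y d r‖ ^ 2 := by positivity
  have b5 : 0 ≤ r⁻¹ * ‖deriv ((Fp B η p).u d) r‖ ^ 2 := by positivity
  have e3 : (Fp B η p).w r = r ^ (p + 2) := rfl
  have e4 : (Fp B η p).f r = r ^ (p + 2) := rfl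
  rw [e3, e4]
  linarith

theorem Fp_lay (d : Dt B η) (h : 4 * B + 1 < r) :
    (Fp B η p).Q d r ≤ 3 * (r * lp p d.M d.a d.om d.m d.v r) := by
  have r0 : 0 < r := by linarith [d.one h]
  obtain ⟨t0, -, m0, m1, -⟩ := d.mu_bd h
  have μ0 : 0 < d.mu r := by linarith
  have a := sq_G (P := Dd d.M d.a d.om d.m d.v r) (Z := (r : ℂ)⁻¹ • d.v r) (u := d.v r) (K := r⁻¹)
    (by rw [norm_smul, norm_cinv r0])
  have b : ‖(Fp B η p).u d r‖ = r⁻¹ ^ 3 * ‖d.v r‖ := by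
    simp only [Fp]; rw [norm_smul, norm_pow, norm_cinv r0]
  have c : ‖(Fp B η p).Y d r‖ ^ 2 ≤
      (1 * r⁻¹ ^ 3) ^ 2 * (2 * ‖Dd d.M d.a d.om d.m d.v r‖ ^ 2 + 2 * r⁻¹ ^ 2 * ‖d.v r‖ ^ 2) := by
    rw [Fp_Y d h, norm_smul, norm_mul, norm_pow, norm_cinv r0, Complex.norm_real, Real.norm_eq_abs,
      abs_of_pos μ0, mul_pow]
    gcongr
  have W0 : 0 < r ^ (p + 2) := Real.rpow_pos_of_pos r0 _
  have e2 : r * lp p d.M d.a d.om d.m d.v r =
      r ^ (p + 2) * r⁻¹ ^ 6 * (‖Dd d.M d.a d.om d.m d.v r‖ ^ 2 + r⁻¹ ^ 2 * ‖d.v r‖ ^ 2) := by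
    rw [lp, Real.rpow_add r0, Real.rpow_two]; field_simp
  have b1 := mul_le_mul_of_nonneg_left c W0.le
  have b2 := mul_le_mul_of_nonneg_left m1 (by positivity : 0 ≤ r ^ (p + 2) * r⁻¹ ^ 8 * ‖d.v r‖ ^ 2)
  have b3 : 0 ≤ r ^ (p + 2) * d.mu r ^ 2 * ‖deriv ((Fp B η p).u d) r‖ ^ 2 := by positivity
  have b4 : 0 ≤ r ^ (p + 2) * r⁻¹ ^ 6 * ‖Dd d.M d.a d.om d.m d.v r‖ ^ 2 := by positivity
  have e3 : (Fp B η p).w r = r ^ (p + 2) := rfl
  have e4 : (Fp B η p).f r = r ^ (p + 2) := rfl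
  have e5 : (Fp B η p).k = -2 := rfl
  have e6 : (Fp B η p).β = 4 := rfl
  rw [e2, Fa.Q, Fp_T, b, e3, e4, e5, e6]
  linarith

theorem cont_pow {x y : ℝ} (q : ℝ) (hx : 0 < x) : ContinuousOn (fun r : ℝ => r ^ q) (Icc x y) :=
  fun _ hr => (der_pow q (hx.trans_le hr.1)).continuousAt.continuousWithinAt

/-- (G) for the spin 2. -/
theorem gp : GP := fun B η p hη p0 p1 => by
  obtain ⟨X, hX⟩ := (Fp_ok (B := B) (η := η) p0 p1).main hη (by norm_num)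
    (fd := fun d => fp d.v) (ld := fun d => lp p d.M d.a d.om d.m d.v)
    (fun d x y h => (((d.sm.cont.norm.pow 2).add
      ((d.is.sm_deriv d.sm).cont.norm.pow 2)).continuousOn).div (continuousOn_pow 7)
        fun r hr => pow_ne_zero _ (by linarith [d.one h, hr.1]))
    (fun d x y h => ((cont_pow p (by linarith [d.one h])).mul (((continuousOn_pow 2).mul
      (((((Jt.zero _).Dd fun d => d.sm).cont (fun d => d.sm) d h).norm).pow 2)).add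
        (d.sm.cont.norm.pow 2).continuousOn)).div (continuousOn_pow 7)
          fun r hr => pow_ne_zero _ (by linarith [d.one h, hr.1]))
    (fun d r h => by rw [lp]; positivity) ⟨19, by norm_num, fun d r => Fp_far p0 d⟩
    ⟨3, by norm_num, fun d r => Fp_lay d⟩ fun y => ⟨|y| ^ 7 * 19, by positivity, fun d r h hy => by
      have r0 : 0 < r := by linarith [d.one h]
      have a := Fp_far p0 d h
      rw [fp, div_le_iff₀ (by positivity)] at a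
      have b := (Fp_ok (B := B) (η := η) p0 p1).dn0 d (d.one h)
      have c : r ^ 7 ≤ |y| ^ 7 := by gcongr; exact hy.trans (le_abs_self _)
      nlinarith⟩
  refine ⟨X, fun x hx => (hX x hx).imp fun C h => ⟨h.1, fun R hR => (h.2 R hR).imp fun C' h =>
    ⟨h.1, fun S _ _ A hA hs M a r0 k om m par v sm => h.2 ⟨S, A, hA, hs, M, a, r0, k, om, m, par, v, sm⟩⟩⟩⟩

end Vale.Agent.P354XN
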