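import Vale.Agent.P354XN.Fa

/-!
The near and the far estimate together.
-/

open scoped ContDiff InnerProductSpace
open Complex (I)
open MeasureTheory Set Filter Topology intervalIntegral Vale.Agent.P354BF

noncomputable section

namespace Vale.Agent.P354XN

variable {B η s x y r : ℝ} {F : Fa B η}

theorem Fa.Ok.bot (o : F.Ok s) (hx : 4 * B + 1 < x) (x0 : 0 < x) (z : ℝ) :
    ∃ K, 0 ≤ K ∧ ∀ d, ∀ r ∈ Icc x z, -F.Q d r ≤ K * d.lh r := by
  obtain ⟨W, hW⟩ := isCompact_Icc.bddAbove_image (o.w_cont (y := z) x0)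
  obtain ⟨K1, k1, h1⟩ := o.ju.bda z
  obtain ⟨K2, k2, h2⟩ := (o.ju.mono (by omega : 2 ≤ 3)).bdw z
  obtain ⟨K3, k3, h3⟩ := (o.ju.der fun d => d.sm).bdw z
  obtain ⟨K4, k4, h4⟩ := (o.j1.mono (by omega : 2 ≤ 3)).bdw z
  obtain ⟨K5, k5, h5⟩ := (o.j0.mono (by omega : 2 ≤ 3)).bdw z
  refine ⟨|W| * (K1 + (|F.k - F.β| + |F.k|) * K2 + K3) + K4 + K5, by positivity, fun d r hr => ?_⟩
  have r1 := hx.trans_le hr.1
  obtain ⟨t0, t1, m0, m1, -⟩ := d.mu_bd r1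
  have f0 := o.f0 r (d.one r1)
  have fw := o.fw r (d.one r1)
  have wW : F.w r ≤ |W| := (hW ⟨r, hr, rfl⟩).trans (le_abs_self _)
  have t2 : r⁻¹ ^ 2 ≤ 1 := pow_le_one₀ t0.le t1
  have μ0 : 0 ≤ d.mu r := by linarith
  have w0 : 0 < F.w r := by linarith
  have a1 : F.w r * d.mu r * r⁻¹ ^ 2 ≤ |W| * 1 * 1 := by gcongr
  have a2 : F.f r * d.mu r * r⁻¹ ^ 2 ≤ |W| * 1 * 1 := by gcongr; linarith
  have a3 : F.f r * d.mu r ^ 2 ≤ |W| * 1 ^ 2 := by gcongr; linarith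
  have A0 := An_nonneg (A := d.A) (F.u d r)
  have n0 := sq_nonneg ‖F.u d r‖
  have l0 := wd_nonneg 3 d.v r
  have l1 := ad_nonneg (A := d.A) 2 d.v r
  have c1 : F.w r * d.mu r * r⁻¹ ^ 2 * (An d.A (F.u d r) + (F.k - F.β) * ‖F.u d r‖ ^ 2) ≤
      |W| * 1 * 1 * (K1 * ad d.A 2 d.v r + |F.k - F.β| * (K2 * wd 3 d.v r)) :=
    (mul_le_mul_of_nonneg_left (add_le_add (h1 d r r1 hr.2) (mul_le_mul (le_abs_self _)
      (h2 d r r1 hr.2) n0 (abs_nonneg _))) (by positivity)).trans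
      (mul_le_mul_of_nonneg_right a1 (by positivity))
  have c2 := mul_le_mul a3 (h3 d r r1 hr.2) (sq_nonneg _) (by positivity)
  have c3 : F.f r * d.mu r * r⁻¹ ^ 2 * (-F.k * ‖F.u d r‖ ^ 2) ≤
      |W| * 1 * 1 * (|F.k| * (K2 * wd 3 d.v r)) :=
    (mul_le_mul_of_nonneg_left (mul_le_mul (neg_le_abs _) (h2 d r r1 hr.2) n0 (abs_nonneg _))
      (by positivity)).trans (mul_le_mul_of_nonneg_right a2 (by positivity))
  have c4 : 0 ≤ F.f r * d.mu r * r⁻¹ ^ 2 * An d.A (F.u d r) := by positivity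
  have c5 := mul_le_mul t1 (add_le_add (h4 d r r1 hr.2) (h5 d r r1 hr.2)) (F.T0 d r) zero_le_one
  have c6 : 0 ≤ F.w r * ‖F.Y d r‖ ^ 2 := by positivity
  have c7 : 0 ≤ |W| * (K1 * ad d.A 2 d.v r + K1 * wd 3 d.v r + (|F.k - F.β| + |F.k|) * K2 *
    (wd 3 d.v r + ad d.A 2 d.v r) + K3 * (wd 3 d.v r + ad d.A 2 d.v r)) := by positivity
  have c8 : 0 ≤ |W| * (K1 * wd 3 d.v r + (|F.k - F.β| + |F.k|) * K2 * ad d.A 2 d.v r +
    K3 * ad d.A 2 d.v r) + (K4 + K5) * ad d.A 2 d.v r := by positivity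
  have c9 : 0 ≤ (K4 + K5) * ad d.A 2 d.v r := by positivity
  rw [Fa.Q, Fa.T, Dt.lh]
  linarith

theorem int_add {f g : ℝ → ℝ} (hf : Continuous f) (hg : Continuous g) (x y : ℝ) :
    ∫ r in x..y, (f r + g r) = (∫ r in x..y, f r) + ∫ r in x..y, g r :=
  integral_add (hf.intervalIntegrable _ _) (hg.intervalIntegrable _ _)

/-- The near estimate with the loss put on the far density. -/
theorem Fa.Ok.loc (o : F.Ok s) (hη : 0 < η) (hs : |s| ≤ 2) (hx : 4 * B + 2 < x)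
    (hy : (4 * B ^ 2 + 1) / η + 2 * B ≤ x)
    (low : ∀ y, ∃ K, 0 ≤ K ∧ ∀ d r, 4 * B + 1 < r → r ≤ y →
      ‖d.v r‖ ^ 2 + ‖deriv d.v r‖ ^ 2 ≤ K * F.dn d r) :
    Le (fun d : Dt B η => ∫ r in d.r0..x, d.lh r) fun d => (∫ r in d.r0..x, wd 2 d.v r) +
      (∫ r in x - 1..x + 2, F.dn d r) + ∫ r in d.r0..x + 2, wd 2 (d.P s) r := by
  by_cases hB : 0 < B
  swap
  · exact Le.of fun d => absurd d.par.B0 hB
  have s1 := abs_le.1 hs
  have r1 : ∀ d : Dt B η, d.r0 ≤ x - 1 := fun d => by linarith [d.par.r0_le]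
  have c1 : ∀ d : Dt B η, Continuous fun r => ‖deriv d.v r‖ ^ 2 := fun d =>
    (d.is.sm_deriv d.sm).cont.norm.pow 2
  have c0 : ∀ d : Dt B η, Continuous fun r => ‖d.v r‖ ^ 2 + ‖deriv d.v r‖ ^ 2 := fun d =>
    (d.sm.cont.norm.pow 2).add (c1 d)
  have c2 : ∀ d : Dt B η, Continuous fun r => ‖deriv (deriv d.v) r‖ ^ 2 := fun d =>
    (d.is.sm_deriv (d.is.sm_deriv d.sm)).cont.norm.pow 2
  have cw := fun d : Dt B η => wd_cont d.sm 2
  have cP := fun d : Dt B η => wd_cont (d.smP s) 2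
  have p1 : ∀ d : Dt B η, 0 ≤ ∫ r in d.r0..x, wd 2 d.v r := fun d =>
    integral_nonneg (by linarith [r1 d]) fun r _ => wd_nonneg _ _ _
  have p2 : ∀ d : Dt B η, 0 ≤ ∫ r in x - 1..x + 2, F.dn d r := fun d =>
    integral_nonneg (by linarith) fun r hr => o.dn0 d (by linarith [hr.1])
  have p3 : ∀ d : Dt B η, 0 ≤ ∫ r in d.r0..x + 2, wd 2 (d.P s) r := fun d =>
    integral_nonneg (by linarith [r1 d]) fun r _ => wd_nonneg _ _ _
  obtain ⟨K, k0, hK⟩ := low (x + 2)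
  have a1 := (Le.int (x := fun _ => x - 1) (y := fun _ => x + 2) (fun _ => by linarith)
    (fun d => (c0 d).continuousOn) (fun d => o.dn_cont d (by linarith)) k0
    fun d r hr => hK d r (by linarith [hr.1]) hr.2).trans (Le.of (g := fun d =>
      (∫ r in d.r0..x, wd 2 d.v r) + (∫ r in x - 1..x + 2, F.dn d r) +
        ∫ r in d.r0..x + 2, wd 2 (d.P s) r) fun d => by linarith [p1 d, p3 d])
  have a3 : ∀ {y : Dt B η → ℝ} {z : ℝ}, (∀ d, d.r0 ≤ y d) → (∀ d, y d ≤ z) → z ≤ x + 2 →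
      Le (fun d => ∫ r in y d..z, wd 2 (d.P s) r) fun d => (∫ r in d.r0..x, wd 2 d.v r) +
        (∫ r in x - 1..x + 2, F.dn d r) + ∫ r in d.r0..x + 2, wd 2 (d.P s) r :=
    fun h1 h2 h3 => Le.of fun d => (int_sub (cP d).continuousOn (fun r _ => wd_nonneg _ _ _) (h1 d)
      (h2 d) h3).trans (by linarith [p1 d, p2 d])
  have m := (mid (B := B) hη (σ := s - 1) (x := x - 1) (abs_le.2 ⟨by linarith, by linarith⟩)
    (by linarith)).der
  rw [show x - 1 + 1 = x by ring, show x - 1 + 2 = x + 1 by ring, show x - 1 + 3 = x + 2 by ring]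
    at m
  have a4 : Le (fun d : Dt B η => ∫ r in x - 1..x + 2, (‖deriv d.v r‖ ^ 2 + ‖d.der.P (s - 1) r‖ ^ 2))
      fun d => ∫ r in x - 1..x + 2, (‖d.v r‖ ^ 2 + ‖deriv d.v r‖ ^ 2 + wd 2 (d.P s) r) :=
    Le.int (fun _ => by linarith)
      (fun d => ((c1 d).add ((d.der.smP _).cont.norm.pow 2)).continuousOn)
      (fun d => ((c0 d).add (cP d)).continuousOn) (K := 2 + 2 * (18 * B) ^ 2)
      (by positivity) fun d r _ => by
        have := P1_le (σ := s) d (by linarith) r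
        have : 0 ≤ (18 * B) ^ 2 * (‖deriv d.v r‖ ^ 2 + wd 2 (d.P s) r) :=
          mul_nonneg (sq_nonneg _) (add_nonneg (sq_nonneg _) (wd_nonneg _ _ _))
        rw [wd2] at this ⊢
        linarith [sq_nonneg ‖d.v r‖, sq_nonneg ‖deriv d.v r‖, sq_nonneg ‖d.P s r‖,
          sq_nonneg ‖deriv (deriv (d.P s)) r‖]
  have a5 := (m.trans a4).trans ((a1.add (a3 r1 (fun _ => by linarith) le_rfl)).mono
    (fun d => (int_add (c0 d) (cP d) _ _).le) fun _ => le_rfl)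
  have a6 : Le (fun d : Dt B η => ∫ r in d.r0..x, wd 2 d.v r) fun d => (∫ r in d.r0..x, wd 2 d.v r) +
      (∫ r in x - 1..x + 2, F.dn d r) + ∫ r in d.r0..x + 2, wd 2 (d.P s) r :=
    Le.of fun d => by linarith [p2 d, p3 d]
  refine (near hη hs hy).trans ((((a6.add a1).add a5).add (a3 (z := x + 1) (fun _ => le_rfl)
    (fun d => by linarith [r1 d]) (by linarith))).mono (fun d => ?_) fun _ => le_rfl)
  have e1 := int_add (cw d) (cP d) d.r0 (x + 1)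
  have e2 := integral_add_adjacent_intervals ((cw d).intervalIntegrable (μ := volume) d.r0 x)
    ((cw d).intervalIntegrable x (x + 1))
  have e3 := int_add (c0 d) (c2 d) x (x + 1)
  have e4 := int_sub (x := x - 1) (y := x + 2) (c0 d).continuousOn
    (fun r _ => add_nonneg (sq_nonneg _) (sq_nonneg _)) (by linarith : x - 1 ≤ x)
    (by linarith : x ≤ x + 1) (by linarith)
  have e5 : ∫ r in x..x + 1, wd 2 d.v r = _ := (integral_congr fun r _ => wd2 d.v r).trans e3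
  exact e1.trans_le (add_le_add_left (by
    rw [← e2, e5, add_assoc]; exact add_le_add_right (add_le_add_left e4 _) _) _)

/-- The estimate (G) for given far and layer densities. -/
theorem Fa.Ok.main (o : F.Ok s) (hη : 0 < η) (hs : |s| ≤ 2) {fd ld : Dt B η → ℝ → ℝ}
    (cf : ∀ d x y, 4 * B + 1 < x → ContinuousOn (fd d) (Icc x y))
    (cl : ∀ d x y, 4 * B + 1 < x → ContinuousOn (ld d) (Icc x y))
    (l0 : ∀ d r, 0 < r → 0 ≤ ld d r)
    (hf : ∃ K, 0 ≤ K ∧ ∀ d r, 4 * B + 1 < r → fd d r ≤ K * F.dn d r)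
    (hl : ∃ K, 0 ≤ K ∧ ∀ d r, 4 * B + 1 < r → F.Q d r ≤ K * (r * ld d r))
    (low : ∀ y, ∃ K, 0 ≤ K ∧ ∀ d r, 4 * B + 1 < r → r ≤ y →
      ‖d.v r‖ ^ 2 + ‖deriv d.v r‖ ^ 2 ≤ K * F.dn d r) :
    ∃ X, ∀ x, X ≤ x → ∃ C, 0 ≤ C ∧ ∀ R, x + 2 ≤ R → ∃ C', 0 ≤ C' ∧ ∀ d : Dt B η,
      W 3 d.v d.r0 x + d.A.WL 2 d.v d.r0 x + ∫ r in x..R, fd d r ≤
        C * (W 2 d.v d.r0 x + ∫ r in R..2 * R, ld d r) + C' * W 2 (d.P s) d.r0 (2 * R) := by
  obtain ⟨c, c0, X, X0, hX⟩ := o.int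
  obtain ⟨K1, k1, h1⟩ := hf
  obtain ⟨K2, k2, h2⟩ := hl
  refine ⟨max (max (X + 2) 3) ((4 * B ^ 2 + 1) / η + 2 * B + 1), fun x hx => ?_⟩
  simp only [max_le_iff] at hx
  obtain ⟨⟨x1, x2⟩, x3⟩ := hx
  obtain ⟨C1, c1, l1⟩ := o.loc hη hs (x := x) (by linarith) (by linarith) low
  obtain ⟨C2, c2, l2⟩ := near (B := B) hη hs (y := x - 1) (by linarith)
  obtain ⟨K3, k3, h3⟩ := o.bot (x := x - 2) (by linarith) (by linarith) (x - 1)
  refine ⟨C1 + (C1 + K1) / c * (2 * K2 + K3 * C2), by positivity, fun R hR => ?_⟩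
  obtain ⟨K4, k4, h4⟩ := hX (2 * R)
  refine ⟨C1 + (C1 + K1) / c * (K4 + K3 * C2), by positivity, fun d => ?_⟩
  have B0 := d.par.B0
  have r1 : d.r0 ≤ x - 2 := by linarith [d.par.r0_le]
  have cP := wd_cont (d.smP s) 2
  have sub := fun {y z : ℝ} (a : d.r0 ≤ y) (b : y ≤ z) (c : z ≤ 2 * R) =>
    int_sub cP.continuousOn (fun r _ => wd_nonneg _ _ _) a b c
  obtain ⟨ρ, m1, e1⟩ := ex_avg (by linarith : x - 2 ≤ x - 1) d.lh_cont.continuousOn
  obtain ⟨τ, m2, e2⟩ := ex_avg (by linarith : R ≤ 2 * R) (cl d R (2 * R) (by linarith))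
  have ρτ : ρ ≤ τ := by linarith [m1.2, m2.1]
  have a1 := h4 d ρ τ (by linarith [m1.1]) ρτ m2.2
  have a2 := mul_le_mul_of_nonneg_left (sub (r1.trans m1.1) ρτ m2.2) k4
  have a3 := (h2 d τ (by linarith [m2.1])).trans (mul_le_mul_of_nonneg_left
    ((mul_le_mul_of_nonneg_right m2.2 (l0 d τ (by linarith [m2.1]))).trans
      (by linarith : _ ≤ 2 * ∫ r in R..2 * R, ld d r)) k2)
  have a4 := l2 d
  have a5 := int_sub (x := d.r0) (y := x - 1) d.lh_cont.continuousOn (fun r _ => d.lh0 r) r1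
    (by linarith : x - 2 ≤ x - 1) le_rfl
  simp only [sub_add_cancel, Dt.rh, int_add (wd_cont d.sm 2) cP] at a4
  have a6 := mul_le_mul_of_nonneg_left (sub le_rfl (by linarith : d.r0 ≤ x) (by linarith)) c2
  have a7 := (h3 d ρ m1).trans (mul_le_mul_of_nonneg_left (by linarith : d.lh ρ ≤
    C2 * (∫ r in d.r0..x, wd 2 d.v r) + C2 * ∫ r in d.r0..2 * R, wd 2 (d.P s) r) k3)
  have cd := o.dn_cont d (x := ρ) (y := τ) (by linarith [m1.1])
  have d0 : ∀ r ∈ Icc ρ τ, 0 ≤ F.dn d r := fun r hr => o.dn0 d (by linarith [hr.1, m1.1])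
  have b1 := mul_le_mul_of_nonneg_left (int_sub cd d0 m1.2 (by linarith : x - 1 ≤ x + 2)
    (by linarith [m2.1])) c1
  have b2 := mul_le_mul_of_nonneg_left (int_sub cd d0 (by linarith [m1.2] : ρ ≤ x)
    (by linarith : x ≤ R) m2.1) k1
  have b3 := integral_mono_on (by linarith : x ≤ R) (ii (by linarith) (cf d x R (by linarith)))
    ((ii (by linarith) (o.dn_cont d (by linarith))).const_mul K1) fun r hr =>
      h1 d r (by linarith [hr.1])
  rw [intervalIntegral.integral_const_mul] at b3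
  have b4 := l1 d
  have b5 := mul_le_mul_of_nonneg_left (sub le_rfl (by linarith : d.r0 ≤ x + 2) (by linarith)) c1
  have p1 : 0 ≤ ∫ r in d.r0..x, wd 2 d.v r :=
    integral_nonneg (by linarith) fun r _ => wd_nonneg _ _ _
  have p2 : 0 ≤ ∫ r in R..2 * R, ld d r :=
    integral_nonneg (by linarith) fun r hr => l0 d r (by linarith [hr.1])
  have q : 0 ≤ (C1 + K1) / c := by positivity
  have b6 := mul_le_mul_of_nonneg_left (by nlinarith [mul_nonneg k2 p1, mul_nonneg (mul_nonneg k3 c2) p2] :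
    c * ∫ r in ρ..τ, F.dn d r ≤ (2 * K2 + K3 * C2) * ((∫ r in d.r0..x, wd 2 d.v r) +
      ∫ r in R..2 * R, ld d r) + (K4 + K3 * C2) * ∫ r in d.r0..2 * R, wd 2 (d.P s) r) q
  rw [← mul_assoc, div_mul_cancel₀ _ c0.ne'] at b6
  simp only [Dt.lh, int_add (wd_cont d.sm 3) (ad_cont d.is d.sm 2)] at b4
  rw [W_eq d.sm, W_eq d.sm, WL_eq d.is d.sm, W_eq (d.smP s)]
  linarith [mul_nonneg c1 p2]

end Vale.Agent.P354XN
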