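import Vale.Agent.P354XN.Plus

/-!
The equations of the chain of spin -2.
-/

open scoped ContDiff InnerProductSpace
open Complex (I)
open MeasureTheory Set Filter Topology intervalIntegral Vale.Agent.P354BF

noncomputable section

namespace Vale.Agent.P354XN

variable {B η r : ℝ}

/-- The chains of the unknown and of the source. -/
abbrev Dt.c0 (d : Dt B η) (g : ℝ → d.S) : ℝ → d.S := P354XN.c0 d.M d.a g
abbrev Dt.c1 (d : Dt B η) (g : ℝ → d.S) : ℝ → d.S := P354XN.c1 d.M d.a d.om d.m g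
abbrev Dt.c2 (d : Dt B η) (g : ℝ → d.S) : ℝ → d.S := P354XN.c2 d.M d.a d.om d.m g
def Dt.ka (d : Dt B η) (r : ℝ) : ℂ := 2 * I * Kf d.a d.om d.m r / De d.M d.a r

section jt

variable {g : (d : Dt B η) → ℝ → d.S}

theorem jc0 (g : (d : Dt B η) → ℝ → d.S) : Jt g 0 fun d => d.c0 (g d) :=
  (Jt.smul ((Co.De.pow 2).mul (Co.inv.pow 3)) (Jt.zero g)).congr fun d r _ => by
    rw [Dt.c0, c0, div_eq_mul_inv, inv_pow]
theorem jc1 (hg : ∀ d : Dt B η, d.A.Sm (g d)) : Jt g 1 fun d => d.c1 (g d) := (jc0 g).up hg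
theorem jc2 (hg : ∀ d : Dt B η, d.A.Sm (g d)) : Jt g 2 fun d => d.c2 (g d) := (jc1 hg).up hg

end jt

theorem Co.ka : Co fun (d : Dt B η) r => d.ka r :=
  (((Co.num (2 * I)).mul Co.Kf).mul Co.inD).congr fun _ _ _ => div_eq_mul_inv _ _

theorem Dt.ka_mu (d : Dt B η) (h : 4 * B + 1 < r) : d.ka r * d.mu r = -d.e 0 r := by
  have := d.r_ne h
  have := d.mu_ne h
  simp only [Dt.ka, d.De_eq (r := r) (by linarith [d.one h]), Dt.e, Dt.nu, Kf]
  field_simp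
  push_cast
  ring

theorem Dt.der_up (d : Dt B η) (h : 4 * B + 1 < r) (c : ℝ → d.S) :
    deriv c r = (r : ℂ)⁻¹ ^ 2 • up d.M d.a d.om d.m c r + d.ka r • c r := by
  rw [up, Dd, smul_smul, ← mul_pow, inv_mul_cancel₀ (d.r_ne h), one_pow, one_smul, Dt.ka,
    sub_add_cancel]

/-- Polynomials in 1 / r. -/
def pl (a0 a1 a2 a3 a4 : ℂ) (r : ℝ) : ℂ :=
  a0 + a1 * (r : ℂ)⁻¹ + a2 * (r : ℂ)⁻¹ ^ 2 + a3 * (r : ℂ)⁻¹ ^ 3 + a4 * (r : ℂ)⁻¹ ^ 4

theorem der_pl (a0 a1 a2 a3 a4 : ℂ) (h : r ≠ 0) : HasDerivAt (pl a0 a1 a2 a3 a4)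
    (-(r : ℂ)⁻¹ ^ 2 * pl a1 (2 * a2) (3 * a3) (4 * a4) 0 r) r := by
  have t := der_cinv h
  exact (((((t.const_mul a1).const_add a0).add ((t.fun_pow 2).const_mul a2)).add
    ((t.fun_pow 3).const_mul a3)).add ((t.fun_pow 4).const_mul a4)).congr_deriv (by
      simp [pl]; ring)

theorem der_D (M a r : ℝ) : HasDerivAt (fun t => (De M a t : ℂ)) (2 * r - 2 * M) r := by
  simpa using (der_De M a r).ofReal_comp

theorem der_K (a : ℝ) (om : ℂ) (m r : ℝ) : HasDerivAt (Kf a om m) (om * (2 * r)) r :=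
  (((((hasDerivAt_id r).ofReal_comp.pow 2).add_const _).const_mul om).sub_const _).congr_deriv
    (by simp)

theorem c1_eq (d : Dt B η) (h : 4 * B + 1 < r) : d.c1 d.v r =
    ((De d.M d.a r : ℂ) ^ 2 * (r : ℂ)⁻¹) • deriv d.v r + (De d.M d.a r * (r : ℂ)⁻¹ *
      (2 * (2 * r - 2 * d.M) - 3 * De d.M d.a r * (r : ℂ)⁻¹ - 2 * I * Kf d.a d.om d.m r)) • d.v r := by
  have r0 : r ≠ 0 := by linarith [d.one h]
  have e : d.c0 d.v = fun t : ℝ => ((De d.M d.a t : ℂ) ^ 2 * (t : ℂ)⁻¹ ^ 3) • d.v t :=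
    funext fun t => by rw [Dt.c0, c0, div_eq_mul_inv, inv_pow]
  have := d.r_ne h
  have := d.De_ne h
  rw [Dt.c1, c1, up, Dd, ← Dt.c0, e, ((((der_D d.M d.a r).fun_pow 2).fun_mul
    ((der_cinv r0).fun_pow 3)).fun_smul (d.sm.has r)).deriv]
  simp only [Nat.cast_ofNat, Nat.add_one_sub_one]
  match_scalars <;> field_simp <;> ring

theorem E2 (d : Dt B η) (h : 4 * B + 1 < r) :
    pl 0 0 1 (-2 * d.M) (d.a ^ 2) r • d.c2 d.v r +
      pl (2 * I * d.om) 2 (-2 * I * d.nu - 6 * d.M) (4 * d.a ^ 2) 0 r • d.c1 d.v r =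
    d.A.lop d.k d.a d.om d.m (d.c0 d.v r) +
      pl (-2) (6 * d.M + 6 * I * d.nu) (-6 * d.a ^ 2) 0 0 r • d.c0 d.v r + d.c0 (d.P (-2)) r := by
  have r0 : r ≠ 0 := by linarith [d.one h]
  have D := der_D d.M d.a r
  have t := der_cinv r0
  have c := (hasDerivAt_id' r).ofReal_comp
  have e := (((((D.fun_pow 2).fun_mul t).fun_smul ((d.is.sm_deriv d.sm).has r)).fun_add
    (((D.fun_mul t).fun_mul (((((c.const_mul 2).sub_const (2 * d.M : ℂ)).const_mul 2).fun_sub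
      ((D.const_mul 3).fun_mul t)).fun_sub ((der_K d.a d.om d.m r).const_mul (2 * I)))).fun_smul
        (d.sm.has r))).congr_of_eventuallyEq ((ev h).mono fun t ht => c1_eq d ht)).deriv
  have e1 : pl 0 0 1 (-2 * d.M) (d.a ^ 2) r • d.c2 d.v r =
      (d.mu r : ℂ) • deriv (d.c1 d.v) r + d.e 0 r • d.c1 d.v r := by
    rw [d.der_up h (d.c1 d.v), ← neg_neg (d.e 0 r), ← d.ka_mu h]
    simp only [pl, Dt.mu, c2]; push_cast; module
  have := d.r_ne h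
  rw [e1, e, c1_eq d h]
  simp only [c0, map_smul, Dt.P, Ang.P, pl, De, Kf, Dt.e, Dt.nu, Dt.mu, Nat.cast_ofNat,
    Nat.add_one_sub_one]
  match_scalars <;> field_simp <;> ring

theorem E1 (d : Dt B η) (h : 4 * B + 1 < r) :
    pl 1 (-2 * d.M) (d.a ^ 2) 0 0 r • deriv (d.c2 d.v) r =
    d.A.lop d.k d.a d.om d.m (d.c1 d.v r) +
      pl 0 (-6 * d.M + 2 * I * d.nu) (6 * d.a ^ 2) 0 0 r • d.c1 d.v r +
      pl (-6 * d.M - 6 * I * d.nu) (12 * d.a ^ 2) 0 0 0 r • d.c0 d.v r + d.c1 (d.P (-2)) r := by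
  have r0 : r ≠ 0 := by linarith [d.one h]
  have sm := fun d : Dt B η => d.sm
  have d0 := (jc0 _).dw sm d h
  have e := (((der_pl _ _ _ _ _ r0).fun_smul ((jc2 sm).dw sm d h).has).fun_add
    ((der_pl _ _ _ _ _ r0).fun_smul ((jc1 sm).dw sm d h).has)).unique
    ((((d0.lop d.is _ _ _ _).fun_add ((der_pl _ _ _ _ _ r0).fun_smul d0.has)).fun_add
      ((jc0 _).dw (fun d => d.smP (-2)) d h).has).congr_of_eventuallyEq
        ((ev h).mono fun t ht => E2 d ht))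
  rw [d.der_up h (d.c0 d.v), d.der_up h (d.c1 d.v), d.der_up h (d.c0 (d.P (-2))), map_add, map_smul,
    map_smul] at e
  have e2 := E2 d h
  have k := d.ka_mu h
  refine smul_right_injective _ (pow_ne_zero 2 (inv_ne_zero (d.r_ne h))) ?_
  simp only [pl, Dt.mu, Dt.e, c1, c2] at e e2 k ⊢
  push_cast at k
  linear_combination (norm := module) e - d.ka r • e2 +
    ((r : ℂ)⁻¹ ^ 2 * k) • up d.M d.a d.om d.m (up d.M d.a d.om d.m (c0 d.M d.a d.v)) r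

theorem E0 (d : Dt B η) (h : 4 * B + 1 < r) : (d.mu r : ℂ) • deriv (deriv (d.c2 d.v)) r +
    (d.mu1 r : ℂ) • deriv (d.c2 d.v) r + d.e 0 r • deriv (d.c2 d.v) r = (r : ℂ)⁻¹ ^ 2 •
      (d.A.lop d.k d.a d.om d.m (d.c2 d.v r) + ((-6 * d.M + 2 * I * d.nu + 6 * d.a ^ 2 * (r : ℂ)⁻¹) •
        (r : ℂ)⁻¹ • d.c2 d.v r + (-8 * I * d.nu) • d.c1 d.v r + (-12 * d.a ^ 2 : ℂ) • d.c0 d.v r)) +
      (r : ℂ)⁻¹ ^ 2 • d.c2 (d.P (-2)) r := by
  have r0 : r ≠ 0 := by linarith [d.one h]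
  have sm := fun d : Dt B η => d.sm
  have d1 := (jc1 sm).dw sm d h
  have e := ((der_pl _ _ _ _ _ r0).fun_smul (((jc2 sm).der sm).dw sm d h).has).unique
    (((((d1.lop d.is _ _ _ _).fun_add ((der_pl _ _ _ _ _ r0).fun_smul d1.has)).fun_add
      ((der_pl _ _ _ _ _ r0).fun_smul ((jc0 _).dw sm d h).has)).fun_add
      ((jc1 fun d => d.smP (-2)).dw (fun d => d.smP (-2)) d h).has).congr_of_eventuallyEq
        ((ev h).mono fun t ht => E1 d ht))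
  rw [d.der_up h (d.c0 d.v), d.der_up h (d.c1 d.v), d.der_up h (d.c1 (d.P (-2))), map_add, map_smul,
    map_smul] at e
  have e2 := E1 d h
  have k := d.ka_mu h
  simp only [pl, Dt.mu, Dt.mu1, Dt.e, c1, c2] at e e2 k ⊢
  push_cast at k ⊢
  linear_combination (norm := module) e - d.ka r • e2 +
    k • deriv (up d.M d.a d.om d.m (up d.M d.a d.om d.m (c0 d.M d.a d.v))) r

end Vale.Agent.P354XN
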