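import Vale.Agent.P354XN.Defs
import Vale.Agent.P354BF.Fin

/-!
Tools: the real inner product, the angular form, the two currents.
-/

open scoped ContDiff InnerProductSpace
open Complex (I)
open MeasureTheory Set intervalIntegral Vale.Agent.P354BF

noncomputable section

namespace Vale.Agent.P354XN

variable {S : Type} [NormedAddCommGroup S] [InnerProductSpace ℂ S] {A : Ang S}

/-- The real part of the inner product. -/
def ri (u v : S) : ℝ := (⟪u, v⟫_ℂ).re

theorem ri_comm (u v : S) : ri u v = ri v u := by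
  rw [ri, ri, ← inner_conj_symm, Complex.conj_re]

theorem ri_self (u : S) : ri u u = ‖u‖ ^ 2 := by rw [ri, ip_self, Complex.ofReal_re]

theorem ri_add (u v z : S) : ri u (v + z) = ri u v + ri u z := by
  rw [ri, inner_add_right, Complex.add_re]; rfl

theorem ri_sub (u v z : S) : ri u (v - z) = ri u v - ri u z := by
  rw [ri, inner_sub_right, Complex.sub_re]; rfl

theorem ri_real (c : ℝ) (u v : S) : ri u ((c : ℂ) • v) = c * ri u v := by
  rw [ri, inner_smul_right, Complex.re_ofReal_mul]; rfl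

theorem ri_smul (c : ℂ) (u : S) : ri u (c • u) = c.re * ‖u‖ ^ 2 := by
  rw [ri, inner_smul_right, ip_self, Complex.re_mul_ofReal]

theorem abs_ri (u v : S) : |ri u v| ≤ ‖u‖ * ‖v‖ :=
  (Complex.abs_re_le_norm _).trans (norm_inner_le_norm _ _)

theorem ri_le (u v : S) : ri u v ≤ ‖u‖ * ‖v‖ := (le_abs_self _).trans (abs_ri u v)

theorem le_ri (u v : S) : -(‖u‖ * ‖v‖) ≤ ri u v := (abs_le.1 (abs_ri u v)).1

variable {u v Y : ℝ → S} {u1 v1 : S} {r x y : ℝ}

theorem der_ri (hu : HasDerivAt u u1 r) (hv : HasDerivAt v v1 r) :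
    HasDerivAt (fun t => ri (u t) (v t)) (ri (u r) v1 + ri u1 (v r)) r :=
  Complex.reCLM.hasFDerivAt.comp_hasDerivAt r (hu.inner ℂ hv)

theorem der_sq (hu : HasDerivAt u u1 r) :
    HasDerivAt (fun t => ‖u t‖ ^ 2) (2 * ri (u r) u1) r := by
  have := der_ri hu hu
  simp only [ri_self] at this
  rwa [ri_comm u1, ← two_mul] at this

variable (A) in
/-- The angular form. -/
def An (u : S) : ℝ := ∑ i, ‖A.L i u‖ ^ 2

theorem An_nonneg (u : S) : 0 ≤ An A u := Finset.sum_nonneg fun _ _ => sq_nonneg _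

theorem ri_cas (h : A.Is) (u : S) : ri u (A.cas u) = An A u := by
  rw [ri, h.cas_form, Complex.ofReal_re, An]

theorem ri_cas_smul (h : A.Is) (c : ℂ) (u : S) : ri (c • u) (A.cas u) = c.re * An A u := by
  rw [ri, inner_smul_left, h.cas_form, Complex.re_mul_ofReal, Complex.conj_re, An]

theorem An_ge (h : A.Is) (hs : |A.s| = 2) (u : S) : 6 * ‖u‖ ^ 2 ≤ An A u := by
  have := h.cas_ge u
  rwa [← sq_abs, hs, show (2 : ℝ) ^ 2 + 2 = 6 by norm_num] at this

theorem An_smul (c : ℂ) (u : S) : An A (c • u) = ‖c‖ ^ 2 * An A u := by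
  simp only [An, map_smul, norm_smul, mul_pow, Finset.mul_sum]

theorem An_add (u v : S) : An A (u + v) ≤ 2 * An A u + 2 * An A v := by
  simp only [An, map_add, Finset.mul_sum, ← Finset.sum_add_distrib]
  refine Finset.sum_le_sum fun i _ => ?_
  have := norm_add_le (A.L i u) (A.L i v)
  nlinarith [norm_nonneg (A.L i u + A.L i v), sq_nonneg (‖A.L i u‖ - ‖A.L i v‖)]

variable (A) in
/-- The derivative of a curve and of its rotations at one point. -/
def Dl (u : ℝ → S) (u1 : S) (r : ℝ) : Prop :=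
  HasDerivAt u u1 r ∧ ∀ i, HasDerivAt (fun t => A.L i (u t)) (A.L i u1) r

theorem dl_sm (h : A.Is) (hv : A.Sm v) (r : ℝ) : Dl A v (deriv v r) r :=
  ⟨hv.has r, fun i => h.deriv_L hv i r ▸ (hv.L i).has r⟩

theorem Dl.add (hu : Dl A u u1 r) (hv : Dl A v v1 r) : Dl A (fun t => u t + v t) (u1 + v1) r :=
  ⟨hu.1.add hv.1, fun i => by simpa only [map_add] using (hu.2 i).fun_add (hv.2 i)⟩

theorem Dl.smul {c : ℝ → ℂ} {c1 : ℂ} (hc : HasDerivAt c c1 r) (hu : Dl A u u1 r) :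
    Dl A (fun t => c t • u t) (c r • u1 + c1 • u r) r :=
  ⟨hc.smul hu.1, fun i => by simpa only [map_add, map_smul] using hc.fun_smul (hu.2 i)⟩

theorem Dl.An (h : A.Is) (hu : Dl A u u1 r) :
    HasDerivAt (fun t => An A (u t)) (2 * ri u1 (A.cas (u r))) r := by
  have := HasDerivAt.fun_sum (u := Finset.univ) fun i _ => der_sq (hu.2 i)
  refine this.congr_deriv ?_
  rw [ri, h.cas_ip, Complex.re_sum, Finset.mul_sum]
  exact Finset.sum_congr rfl fun i _ => by rw [ri_comm]; rfl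

theorem cont_An (hv : A.Sm v) : Continuous fun r => An A (v r) :=
  continuous_finsetSum _ fun i _ => (hv.L i).cont.norm.pow 2

/-- Integration of a differential inequality. -/
theorem int_le {Q φ : ℝ → ℝ} (hxy : x ≤ y) (hφ : ContinuousOn φ (Icc x y))
    (h : ∀ r ∈ Icc x y, ∃ q, HasDerivAt Q q r ∧ φ r ≤ q) : ∫ r in x..y, φ r ≤ Q y - Q x := by
  choose! q h1 h2 using h
  exact integral_le_sub_of_hasDeriv_right_of_le hxy
    (fun r hr => (h1 r hr).continuousAt.continuousWithinAt)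
    (fun r hr => (h1 r (Ioo_subset_Icc_self hr)).hasDerivWithinAt)
    (hφ.integrableOn_compact isCompact_Icc) fun r hr => h2 r (Ioo_subset_Icc_self hr)

theorem ii {φ : ℝ → ℝ} (hxy : x ≤ y) (hφ : ContinuousOn φ (Icc x y)) :
    IntervalIntegrable φ volume x y := (hφ.mono (by rw [uIcc_of_le hxy])).intervalIntegrable

/-- A point at which a function is below its mean. -/
theorem ex_avg {g : ℝ → ℝ} (hxy : x ≤ y) (hg : ContinuousOn g (Icc x y)) :
    ∃ ρ ∈ Icc x y, (y - x) * g ρ ≤ ∫ r in x..y, g r := by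
  obtain ⟨ρ, m, h⟩ := isCompact_Icc.exists_isMinOn (nonempty_Icc.2 hxy) hg
  refine ⟨ρ, m, ?_⟩
  have := integral_mono_on hxy (f := fun _ => g ρ) (by simp) (ii hxy hg) fun r hr => h hr
  simpa using this

theorem int_sub {φ : ℝ → ℝ} {x' y' : ℝ} (hφ : ContinuousOn φ (Icc x y))
    (h0 : ∀ r ∈ Icc x y, 0 ≤ φ r) (h1 : x ≤ x') (h2 : x' ≤ y') (h3 : y' ≤ y) :
    ∫ r in x'..y', φ r ≤ ∫ r in x..y, φ r :=
  integral_mono_interval h1 h2 h3
    ((ae_restrict_iff' measurableSet_Ioc).2 (Filter.Eventually.of_forall fun r hr =>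
      h0 r (Ioc_subset_Icc_self hr))) (ii (h1.trans (h2.trans h3)) hφ)

theorem der_De (M a r : ℝ) : HasDerivAt (De M a) (2 * r - 2 * M) r := by
  have := (((hasDerivAt_id r).pow 2).sub ((hasDerivAt_id r).const_mul (2 * M))).add_const (a ^ 2)
  exact this.congr_deriv (by simp)

/-- The current of the near zone. -/
theorem cur (h : A.Is) (hu : A.Sm u) (M a : ℝ) {f g l : ℝ → ℝ} {f1 g1 l1 : ℝ}
    (hf : HasDerivAt f f1 r) (hg : HasDerivAt g g1 r) (hl : HasDerivAt l l1 r) (α : ℂ) {G : S}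
    (e : G = (De M a r : ℂ) • deriv (deriv u) r + α • deriv u r - A.cas (u r)) :
    HasDerivAt (fun t => -(f t * De M a t * ‖deriv u t‖ ^ 2) / 2 + f t * An A (u t) / 2 +
      l t * De M a t * ri (u t) (deriv u t) + g t * ‖u t‖ ^ 2)
      ((f r * α.re - f1 * De M a r / 2 - f r * (r - M) + l r * De M a r) * ‖deriv u r‖ ^ 2 +
        (f1 / 2 + l r) * An A (u r) - f r * ri (deriv u r) G + l r * ri (u r) G -
        l r * ri (u r) (α • deriv u r) +
        (l1 * De M a r + l r * (2 * r - 2 * M) + 2 * g r) * ri (u r) (deriv u r) +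
        g1 * ‖u r‖ ^ 2) r := by
  have d1 := hu.has r
  have d2 := (h.sm_deriv hu).has r
  have := (((((hf.mul (der_De M a r)).mul (der_sq d2)).neg.div_const 2).add
    ((hf.mul ((dl_sm h hu r).An h)).div_const 2)).add
    ((hl.mul (der_De M a r)).mul (der_ri d1 d2))).add (hg.mul (der_sq d1))
  refine this.congr_deriv ?_
  simp only [e, ri_sub, ri_add, ri_real, ri_smul, ri_cas h, ri_self, Pi.mul_apply]
  ring

/-- The current of the far zone. -/
theorem fcur (h : A.Is) {u u1 : ℝ → S} {u2 : S} (hu : Dl A u (u1 r) r) (h1 : HasDerivAt u1 u2 r)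
    {w f μ ρ : ℝ → ℝ} {w1 f1 μ1 ρ1 : ℝ} (hw : HasDerivAt w w1 r) (hf : HasDerivAt f f1 r)
    (hμ : HasDerivAt μ μ1 r) (hρ : HasDerivAt ρ ρ1 r) {e : ℝ → ℂ} {e1 : ℂ}
    (he : HasDerivAt e e1 r) (k1 k2 : ℝ) {G1 G2 : S}
    (e₁ : (μ r : ℂ) • u2 + (μ1 : ℂ) • u1 r + e r • u1 r =
      (ρ r : ℂ) • (A.cas (u r) + (k1 : ℂ) • u r) + G1)
    (e₂ : G2 = G1 + (e1 + ρ r * (k1 - k2)) • u r) :
    HasDerivAt (fun t => w t * ‖(μ t : ℂ) • u1 t + e t • u t‖ ^ 2 / 2 -
      w t * μ t * ρ t * (An A (u t) + k2 * ‖u t‖ ^ 2) / 2 - f t * μ t ^ 2 * ‖u1 t‖ ^ 2 / 2 +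
      f t * μ t * ρ t * (An A (u t) + k1 * ‖u t‖ ^ 2) / 2)
      (w1 / 2 * ‖(μ r : ℂ) • u1 r + e r • u r‖ ^ 2 +
        (w r * ρ r * (e r).re - (w1 * μ r * ρ r + w r * μ1 * ρ r + w r * μ r * ρ1) / 2) *
          (An A (u r) + k2 * ‖u r‖ ^ 2) +
        (f r * μ r * (e r).re - f1 * μ r ^ 2 / 2) * ‖u1 r‖ ^ 2 +
        (f1 * μ r * ρ r + f r * μ1 * ρ r + f r * μ r * ρ1) / 2 * (An A (u r) + k1 * ‖u r‖ ^ 2) +
        w r * ri ((μ r : ℂ) • u1 r + e r • u r) G2 - f r * μ r * ri (u1 r) G1) r := by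
  have dY := (hμ.ofReal_comp.smul h1).add (he.smul hu.1)
  have dA := fun k : ℝ => (hu.An h).add ((der_sq hu.1).const_mul k)
  have := ((((hw.mul (der_sq dY)).div_const 2).sub
    ((((hw.mul hμ).mul hρ).mul (dA k2)).div_const 2)).sub
    (((hf.mul (hμ.pow 2)).mul (der_sq h1)).div_const 2)).add
    ((((hf.mul hμ).mul hρ).mul (dA k1)).div_const 2)
  refine this.congr_deriv ?_
  have a1 : (μ r : ℂ) • u2 + (μ1 : ℂ) • u1 r + (e r • u1 r + e1 • u r) =
      (ρ r : ℂ) • (A.cas (u r) + (k2 : ℂ) • u r) + G2 := by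
    rw [← add_assoc, e₁, e₂]; module
  have a2 : ri ((μ r : ℂ) • u1 r + e r • u r) (A.cas (u r) + (k2 : ℂ) • u r) =
      μ r * (ri (u1 r) (A.cas (u r)) + k2 * ri (u r) (u1 r)) +
        (e r).re * (An A (u r) + k2 * ‖u r‖ ^ 2) := by
    rw [ri_add, ri_real, ri_comm _ (u r), ri_add, ri_real, ri_smul, ri_comm, ri_add, ri_real,
      ri_comm _ (e r • _), ri_cas_smul h, ri_comm _ (u1 r)]
    ring
  have a3 := congrArg (ri (u1 r)) e₁
  simp only [ri_add, ri_real, ri_smul, ri_comm (u1 r) (u r)] at a3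
  simp only [Pi.mul_apply, Pi.add_apply, Pi.smul_apply', Pi.pow_apply]
  rw [a1, ri_add, ri_real, a2]
  simp only [Nat.cast_ofNat, Nat.add_one_sub_one, pow_one]
  linear_combination (-(f r * μ r)) * a3

end Vale.Agent.P354XN
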