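import Vale.Agent.P354XN.Far

/-!
The integrated estimate of the far zone, for both spins.
-/

open scoped ContDiff InnerProductSpace
open Complex (I)
open MeasureTheory Set Filter Topology intervalIntegral Vale.Agent.P354BF

noncomputable section

namespace Vale.Agent.P354XN

/-- The unknown, the lower terms, the weights. -/
structure Fa (B η : ℝ) where
  u : (d : Dt B η) → ℝ → d.S
  c1 : (d : Dt B η) → ℝ → d.S
  c0 : (d : Dt B η) → ℝ → d.S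
  G : (d : Dt B η) → ℝ → d.S
  H : (d : Dt B η) → ℝ → d.S
  β : ℝ
  k : ℝ
  w : ℝ → ℝ
  f : ℝ → ℝ
  w1 : ℝ → ℝ
  f1 : ℝ → ℝ

variable {B η s x y r : ℝ}

namespace Fa

variable (F : Fa B η) (d : Dt B η)

def Y (r : ℝ) : d.S := (d.mu r : ℂ) • deriv (F.u d) r + d.e F.β r • F.u d r
def T (r : ℝ) : ℝ := ‖F.c1 d r‖ ^ 2 + ‖F.c0 d r‖ ^ 2
def g (r : ℝ) : ℝ := ‖deriv (F.u d) r‖ ^ 2 + ‖F.Y d r‖ ^ 2 + r⁻¹ ^ 2 * ‖F.u d r‖ ^ 2 + F.T d r
def dn (r : ℝ) : ℝ := F.w r * r⁻¹ * (‖F.Y d r‖ ^ 2 + r⁻¹ ^ 2 * ‖F.u d r‖ ^ 2) +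
  F.f r * r⁻¹ * ‖deriv (F.u d) r‖ ^ 2 + r⁻¹ ^ 2 * F.T d r
def Q (t : ℝ) : ℝ := F.w t * ‖F.Y d t‖ ^ 2 / 2 -
  F.w t * d.mu t * t⁻¹ ^ 2 * (An d.A (F.u d t) + (F.k - F.β) * ‖F.u d t‖ ^ 2) / 2 -
  F.f t * d.mu t ^ 2 * ‖deriv (F.u d) t‖ ^ 2 / 2 +
  F.f t * d.mu t * t⁻¹ ^ 2 * (An d.A (F.u d t) + F.k * ‖F.u d t‖ ^ 2) / 2 - t⁻¹ * F.T d t
def Bk (r : ℝ) : ℝ := F.w1 r / 2 * ‖F.Y d r‖ ^ 2 +
  (F.w r * r⁻¹ ^ 2 * (d.e F.β r).re - (F.w1 r * d.mu r * r⁻¹ ^ 2 + F.w r * d.mu1 r * r⁻¹ ^ 2 +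
    F.w r * d.mu r * (-2 * r⁻¹ ^ 3)) / 2) * (An d.A (F.u d r) + (F.k - F.β) * ‖F.u d r‖ ^ 2) +
  (F.f r * d.mu r * (d.e F.β r).re - F.f1 r * d.mu r ^ 2 / 2) * ‖deriv (F.u d) r‖ ^ 2 +
  (F.f1 r * d.mu r * r⁻¹ ^ 2 + F.f r * d.mu1 r * r⁻¹ ^ 2 + F.f r * d.mu r * (-2 * r⁻¹ ^ 3)) / 2 *
    (An d.A (F.u d r) + F.k * ‖F.u d r‖ ^ 2) + (r⁻¹ ^ 2 * F.T d r - r⁻¹ *
      (2 * ri (F.c1 d r) (deriv (F.c1 d) r) + 2 * ri (F.c0 d r) (deriv (F.c0 d) r)))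

/-- The hypotheses of the far estimate. -/
structure Ok (s : ℝ) : Prop where
  ju : Jt (fun d => d.v) 2 F.u
  j1 : Jt (fun d => d.v) 2 F.c1
  j0 : Jt (fun d => d.v) 2 F.c0
  jH : Jt (fun d => d.P s) 2 F.H
  hw : ∀ r, 0 < r → HasDerivAt F.w (F.w1 r) r
  hf : ∀ r, 0 < r → HasDerivAt F.f (F.f1 r) r
  f0 : ∀ r, 1 < r → 0 < F.f r
  fw : ∀ r, 1 < r → F.f r ≤ F.w r
  eq : ∀ d r, 4 * B + 1 < r → (d.mu r : ℂ) • deriv (deriv (F.u d)) r +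
    (d.mu1 r : ℂ) • deriv (F.u d) r + d.e F.β r • deriv (F.u d) r = (r : ℂ)⁻¹ ^ 2 •
      (d.A.lop d.k d.a d.om d.m (F.u d r) + (F.k : ℂ) • F.u d r + F.G d r) + F.H d r
  hG : Bq F.g F.G
  bk : ∃ c, 0 < c ∧ ∀ᶠ r in atTop, ∀ d, c * F.dn d r ≤ F.Bk d r
  sm : ∀ C, ∀ᶠ r in atTop, C * F.w r * r⁻¹ ^ 2 ≤ F.f r ∧ ∀ d, C * F.w r * r⁻¹ * F.T d r ≤ F.T d r

theorem T0 (r : ℝ) : 0 ≤ F.T d r := add_nonneg (sq_nonneg _) (sq_nonneg _)

theorem q1 : Bq F.g fun d => deriv (F.u d) := Bq.of fun d r _ => by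
  have := F.T0 d r
  rw [g]; linarith [sq_nonneg ‖F.Y d r‖, mul_nonneg (sq_nonneg r⁻¹) (sq_nonneg ‖F.u d r‖)]
theorem qY : Bq F.g F.Y := Bq.of fun d r _ => by
  have := F.T0 d r
  rw [g]; linarith [sq_nonneg ‖deriv (F.u d) r‖, mul_nonneg (sq_nonneg r⁻¹) (sq_nonneg ‖F.u d r‖)]
theorem qu : Bq F.g fun d r => (r : ℂ)⁻¹ • F.u d r := Bq.of fun d r _ => by
  have := F.T0 d r
  rw [g, norm_smul, mul_pow, ← Complex.ofReal_inv, Complex.norm_real, Real.norm_eq_abs, sq_abs]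
  linarith [sq_nonneg ‖deriv (F.u d) r‖, sq_nonneg ‖F.Y d r‖]
theorem qc1 : Bq F.g F.c1 := Bq.of fun d r _ => by
  rw [g, T]
  linarith [sq_nonneg ‖deriv (F.u d) r‖, sq_nonneg ‖F.Y d r‖, sq_nonneg ‖F.c0 d r‖,
    mul_nonneg (sq_nonneg r⁻¹) (sq_nonneg ‖F.u d r‖)]
theorem qc0 : Bq F.g F.c0 := Bq.of fun d r _ => by
  rw [g, T]
  linarith [sq_nonneg ‖deriv (F.u d) r‖, sq_nonneg ‖F.Y d r‖, sq_nonneg ‖F.c1 d r‖,
    mul_nonneg (sq_nonneg r⁻¹) (sq_nonneg ‖F.u d r‖)]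

theorem qE : Bq F.g fun d r => Eo d.A d.k d.a d.om d.m (F.u d r) := by
  have : Bq F.g fun d r => d.om • F.u d r :=
    (((F.qY.smul (Bc.num (I / 2))).add (F.q1.smul ((Bc.num (-I / 2)).mul Bc.mu))).add
      (F.qu.smul (((Bc.cst Co.nu).mul Bc.inv).add ((Bc.num (-I / 2 * F.β)).mul Bc.mu)))).congr
      fun d r _ => by
        rw [Y, Dt.e]
        match_scalars
        · linear_combination (d.om - d.nu * (r : ℂ)⁻¹ ^ 2) * Complex.I_sq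
        · ring
  exact this.le (L := 2 * B ^ 3 + 4 * B ^ 2) fun d r _ =>
    (Eo_le d.is d.par _).trans_eq (by rw [norm_smul]; ring)

variable {F}

theorem Ok.jY (o : F.Ok s) : Jt (fun d => d.v) 3 F.Y :=
  (Jt.smul Co.mu (o.ju.der fun d => d.sm)).add (Jt.smul (Co.e F.β) (o.ju.mono (by omega)))

theorem Ok.dn0 (o : F.Ok s) (h : 1 < r) : 0 ≤ F.dn d r := by
  have a := o.f0 r h
  have b := o.fw r h
  have c := F.T0 d r
  have : 0 < F.w r := by linarith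
  have : 0 < r := by linarith
  rw [dn]; positivity

theorem Ok.w_cont (o : F.Ok s) (hx : 0 < x) : ContinuousOn F.w (Icc x y) :=
  fun r hr => (o.hw r (hx.trans_le hr.1)).continuousAt.continuousWithinAt

theorem Ok.dn_cont (o : F.Ok s) (hx : 4 * B + 1 < x) : ContinuousOn (F.dn d) (Icc x y) := by
  have x0 : 0 < x := by linarith [d.one hx]
  have a := o.w_cont (y := y) x0
  have b : ContinuousOn F.f (Icc x y) :=
    fun r hr => (o.hf r (x0.trans_le hr.1)).continuousAt.continuousWithinAt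
  have c : ContinuousOn (fun r : ℝ => r⁻¹) (Icc x y) :=
    continuousOn_id.inv₀ fun r hr => (x0.trans_le hr.1).ne'
  have sm := fun d : Dt B η => d.sm
  exact (((a.mul c).mul (((o.jY.cont sm d hx).norm.pow 2).add ((c.pow 2).mul
    ((o.ju.cont sm d hx).norm.pow 2)))).add ((b.mul c).mul
      (((o.ju.der sm).cont sm d hx).norm.pow 2))).add ((c.pow 2).mul
        (((o.j1.cont sm d hx).norm.pow 2).add ((o.j0.cont sm d hx).norm.pow 2)))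

theorem sq_le {S : Type} [NormedAddCommGroup S] [NormedSpace ℂ S] {G H : S} {K g : ℝ} (r : ℝ)
    (h : ‖G‖ ^ 2 ≤ K * g) :
    ‖(r : ℂ)⁻¹ ^ 2 • G + H‖ ^ 2 ≤ 2 * K * r⁻¹ ^ 4 * g + 2 * ‖H‖ ^ 2 := by
  have a := sq_G (P := (r : ℂ)⁻¹ ^ 2 • G) (Z := H) (u := H) (K := 1) (by simp)
  rw [norm_smul, norm_pow, ← Complex.ofReal_inv, Complex.norm_real, Real.norm_eq_abs, sq_abs] at a
  have b := mul_le_mul_of_nonneg_left h (by positivity : 0 ≤ r⁻¹ ^ 4)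
  rw [← Complex.ofReal_inv]
  linarith

/-- The differential inequality. -/
theorem Ok.pt (o : F.Ok s) : ∃ c, 0 < c ∧ ∀ᶠ r in atTop, ∀ d, ∃ q, HasDerivAt (F.Q d) q r ∧
    c / 2 * F.dn d r - 4 / c * (F.w r * r * ‖F.H d r‖ ^ 2) ≤ q := by
  obtain ⟨c, c0, hc⟩ := o.bk
  obtain ⟨K1, k1, h1⟩ := F.qE.add o.hG
  obtain ⟨K2, k2, h2⟩ := (F.qE.add o.hG).add (F.qu.smul (((Bc.num (-4 * I)).mul (Bc.cst Co.nu)).add
    ((Bc.num F.β).mul (((Bc.num 4).mul (Bc.cst Co.M)).add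
      (((Bc.num (-3)).mul (Bc.cst (Co.a.pow 2))).mul Bc.inv)))))
  refine ⟨c, c0, ?_⟩
  filter_upwards [hc, o.sm (8 * (2 * (K1 + K2)) / c ^ 2), eventually_gt_atTop (4 * B + 1)]
    with r hb hs hr d
  have sm := fun d : Dt B η => d.sm
  have r1 := d.one hr
  have r0 : r ≠ 0 := by linarith
  obtain ⟨t0, -, m0, m1, -⟩ := d.mu_bd hr
  have g0 : 0 ≤ r⁻¹ ^ 4 * F.g d r := by
    have := F.T0 d r
    rw [g]; positivity
  have D := (fcur d.is ((o.ju.dw sm d hr).dl d.is) ((o.ju.der sm).dw sm d hr).has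
    (o.hw r (by linarith)) (o.hf r (by linarith)) (d.der_mu r0) ((der_inv r0).fun_pow 2)
    (d.der_e F.β r0) F.k (F.k - F.β)
    (G1 := (r : ℂ)⁻¹ ^ 2 • (Eo d.A d.k d.a d.om d.m (F.u d r) + F.G d r) + F.H d r)
    (G2 := (r : ℂ)⁻¹ ^ 2 • (Eo d.A d.k d.a d.om d.m (F.u d r) + F.G d r + (-4 * I * d.nu + F.β *
      (4 * d.M + -3 * d.a ^ 2 * (r : ℂ)⁻¹)) • (r : ℂ)⁻¹ • F.u d r) + F.H d r)
    (by rw [o.eq d r hr, Eo]; push_cast; module)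
    (by simp only [Dt.mu, Dt.mu1]; push_cast; module)).fun_sub
    ((der_inv r0).fun_mul ((der_sq (o.j1.dw sm d hr).has).fun_add (der_sq (o.j0.dw sm d hr).has)))
  refine ⟨_, D, ?_⟩
  have cc : 0 < c ^ 2 := by positivity
  have a := abs_pt (C := 2 * (K1 + K2)) (h := 2 * ‖F.H d r‖ ^ 2) (n := ‖F.u d r‖)
    (mul_inv_cancel₀ r0) t0 (o.f0 r r1) (o.fw r r1) c0 (norm_nonneg (deriv (F.u d) r)) (norm_nonneg _) (F.T0 d r) (by linarith) m1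
    (ri_le _ _) (le_ri (F.Y d r) _) ((sq_le (H := F.H d r) r (h1 d r hr)).trans (by
      have := mul_nonneg k2 g0
      rw [g] at this ⊢; linarith)) ((sq_le (H := F.H d r) r (h2 d r hr)).trans (by
      have := mul_nonneg k1 g0
      rw [g] at this ⊢; linarith))
    (by
      have := mul_le_mul_of_nonneg_left hs.1 cc.le
      rwa [← mul_assoc, ← mul_assoc, mul_div_cancel₀ _ cc.ne'] at this)
    (by
      have := mul_le_mul_of_nonneg_left (hs.2 d) cc.le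
      rwa [← mul_assoc, ← mul_assoc, ← mul_assoc, mul_div_cancel₀ _ cc.ne'] at this)
  have b := hb d
  rw [dn] at b ⊢
  simp only [Bk, Y, T, Nat.cast_ofNat, Nat.add_one_sub_one, pow_one] at a b ⊢
  have e : 4 / c = 2 * (2 / c) := by ring
  rw [e]
  linarith

/-- The integrated inequality. -/
theorem Ok.int (o : F.Ok s) : ∃ c, 0 < c ∧ ∃ X, 4 * B + 1 < X ∧ ∀ z, ∃ K, 0 ≤ K ∧ ∀ d x y, X ≤ x →
    x ≤ y → y ≤ z → c * ∫ r in x..y, F.dn d r ≤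
      F.Q d y - F.Q d x + K * ∫ r in x..y, wd 2 (d.P s) r := by
  obtain ⟨c, c0, h⟩ := o.pt
  obtain ⟨X, hX⟩ := eventually_atTop.1
    (h.and ((eventually_gt_atTop (4 * B + 1)).and (eventually_gt_atTop 0)))
  refine ⟨c / 2, by positivity, X, (hX X le_rfl).2.1, fun z => ?_⟩
  obtain ⟨K, k0, hK⟩ := o.jH.bdw z
  obtain ⟨W, hW⟩ := isCompact_Icc.bddAbove_image (o.w_cont (y := z) (hX X le_rfl).2.2)
  refine ⟨4 / c * (|W| * |z| * K), by positivity, fun d x y hx hxy hy => ?_⟩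
  have c1 := o.dn_cont d (y := y) (hX x hx).2.1
  have c2 := wd_cont (d.smP s) 2
  have key := int_le hxy (Q := F.Q d) (φ := fun r => c / 2 * F.dn d r -
      4 / c * (|W| * |z| * K) * wd 2 (d.P s) r) ((c1.const_mul _).sub (by fun_prop)) fun r hr => by
    obtain ⟨⟨h1, h2, h3⟩, h4⟩ := And.intro (hX r (hx.trans hr.1)) (hr.2.trans hy)
    obtain ⟨q, h5, h6⟩ := h1 d
    refine ⟨q, h5, le_trans (sub_le_sub_left ?_ _) h6⟩
    rw [mul_assoc (4 / c) (|W| * |z| * K), mul_assoc (|W| * |z|)]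
    refine mul_le_mul_of_nonneg_left (mul_le_mul (mul_le_mul ((hW ⟨r, ⟨hx.trans hr.1, h4⟩, rfl⟩).trans
      (le_abs_self _)) (h4.trans (le_abs_self _)) h3.le (abs_nonneg _)) (hK d r h2 h4) (sq_nonneg _)
        (by positivity)) (by positivity)
  rw [integral_sub ((ii hxy c1).const_mul _) ((c2.intervalIntegrable _ _).const_mul _),
    intervalIntegral.integral_const_mul, intervalIntegral.integral_const_mul] at key
  linarith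

end Fa

end Vale.Agent.P354XN
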