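import Vale.Agent.P354XN.Jet

/-!
The current of the far zone, for both spins.
-/

open scoped ContDiff InnerProductSpace
open Complex (I)
open MeasureTheory Set Filter Topology intervalIntegral Vale.Agent.P354BF

noncomputable section

namespace Vale.Agent.P354XN

variable {B η s x y r β : ℝ}

/-- The coefficients of the far equation. -/
def Dt.mu (d : Dt B η) (r : ℝ) : ℝ := 1 - 2 * d.M * r⁻¹ + d.a ^ 2 * r⁻¹ ^ 2
def Dt.mu1 (d : Dt B η) (r : ℝ) : ℝ := r⁻¹ ^ 2 * (2 * d.M - 2 * d.a ^ 2 * r⁻¹)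
def Dt.nu (d : Dt B η) : ℂ := d.a * d.m - d.om * d.a ^ 2
def Dt.e (d : Dt B η) (β r : ℝ) : ℂ :=
  -2 * I * d.om + 2 * I * d.nu * (r : ℂ)⁻¹ ^ 2 + β * d.mu r * (r : ℂ)⁻¹

theorem der_inv (h : r ≠ 0) : HasDerivAt (fun t : ℝ => t⁻¹) (-r⁻¹ ^ 2) r :=
  (hasDerivAt_inv h).congr_deriv (by simp)

theorem der_cinv (h : r ≠ 0) : HasDerivAt (fun t : ℝ => (t : ℂ)⁻¹) (-(r : ℂ)⁻¹ ^ 2) r := by
  simpa using (der_inv h).ofReal_comp

theorem Dt.der_mu (d : Dt B η) (h : r ≠ 0) : HasDerivAt d.mu (d.mu1 r) r :=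
  ((((der_inv h).const_mul (2 * d.M)).const_sub 1).add
    (((der_inv h).fun_pow 2).const_mul (d.a ^ 2))).congr_deriv (by simp [Dt.mu1]; ring)

theorem Dt.der_e (d : Dt B η) (β : ℝ) (h : r ≠ 0) : HasDerivAt (d.e β)
    (-4 * I * d.nu * (r : ℂ)⁻¹ ^ 3 + β * (d.mu1 r * (r : ℂ)⁻¹ - d.mu r * (r : ℂ)⁻¹ ^ 2)) r :=
  (((((der_cinv h).fun_pow 2).const_mul (2 * I * d.nu)).const_add (-2 * I * d.om)).add
    (((d.der_mu h).ofReal_comp.const_mul (β : ℂ)).fun_mul (der_cinv h))).congr_deriv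
      (by simp; ring)

theorem Dt.e_re (d : Dt B η) (β r : ℝ) :
    (d.e β r).re = 2 * d.om.im * (1 + d.a ^ 2 * r⁻¹ ^ 2) + β * d.mu r * r⁻¹ := by
  simp only [Dt.e, Dt.nu, ← Complex.ofReal_inv, ← Complex.ofReal_pow]
  simp only [Complex.add_re, Complex.mul_re, Complex.mul_im, Complex.sub_re, Complex.sub_im,
    Complex.ofReal_re, Complex.ofReal_im, Complex.I_re, Complex.I_im, Complex.neg_re,
    Complex.neg_im, Complex.re_ofNat, Complex.im_ofNat]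
  ring

theorem Dt.mu_bd (d : Dt B η) (h : 4 * B + 1 < r) :
    0 < r⁻¹ ∧ r⁻¹ ≤ 1 ∧ 1 / 2 ≤ d.mu r ∧ d.mu r ≤ 1 ∧ 0 ≤ d.mu1 r ∧ d.mu1 r ≤ 2 * B * r⁻¹ ^ 2 := by
  have r1 := d.one h
  have t0 : 0 < r⁻¹ := by positivity
  have e : r * r⁻¹ = 1 := mul_inv_cancel₀ (by linarith)
  have p := d.par
  have a2 : d.a ^ 2 ≤ d.M ^ 2 := by
    have := p.hi
    rw [De] at this
    nlinarith [sq_nonneg (d.r0 - d.M)]
  have m1 : 4 * d.M * r⁻¹ ≤ 1 := by nlinarith [p.MB]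
  have m2 : d.a ^ 2 * r⁻¹ ≤ d.M := by nlinarith [p.M0]
  have m3 : 0 ≤ d.a ^ 2 * r⁻¹ := by positivity
  refine ⟨t0, inv_le_one_of_one_le₀ r1.le, ?_, ?_, mul_nonneg (sq_nonneg _) (by linarith), ?_⟩
  · rw [Dt.mu]; nlinarith
  · rw [Dt.mu]; nlinarith [p.M0]
  · rw [Dt.mu1]; nlinarith [p.MB, sq_nonneg r⁻¹]

theorem Co.nu : Co fun (d : Dt B η) _ => d.nu := (Co.a.mul Co.m).sub (Co.om.mul (Co.a.pow 2))
theorem Co.mu : Co fun (d : Dt B η) r => (d.mu r : ℂ) :=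
  (((Co.num 1).sub (((Co.num 2).mul Co.M).mul Co.inv)).add ((Co.a.pow 2).mul (Co.inv.pow 2))).congr
    fun _ _ _ => by simp [Dt.mu]
theorem Co.e (β : ℝ) : Co fun (d : Dt B η) r => d.e β r :=
  (((Co.num _).mul Co.om).add (((Co.num _).mul Co.nu).mul (Co.inv.pow 2))).add
    (((Co.num _).mul Co.mu).mul Co.inv)

/-- Bounded coefficients. -/
def Bc (c : Dt B η → ℝ → ℂ) : Prop := ∃ K, 0 ≤ K ∧ ∀ d r, 4 * B + 1 < r → ‖c d r‖ ≤ K

namespace Bc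

variable {c e : Dt B η → ℝ → ℂ}

theorem cst {c : Dt B η → ℂ} (h : Co fun d _ => c d) : Bc fun d _ => c d :=
  let ⟨K, k, h⟩ := h.bd (4 * B + 2)
  ⟨K, k, fun d _ _ => h d (4 * B + 2) (by linarith) le_rfl⟩
theorem num (z : ℂ) : Bc fun (_ : Dt B η) _ => z := cst (Co.num z)
theorem inv : Bc fun (_ : Dt B η) r => (r : ℂ)⁻¹ := ⟨1, zero_le_one, fun d r h => by
  beta_reduce
  rw [← Complex.ofReal_inv, Complex.norm_real, Real.norm_eq_abs, abs_of_pos (d.mu_bd h).1]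
  exact (d.mu_bd h).2.1⟩
theorem mu : Bc fun (d : Dt B η) r => (d.mu r : ℂ) := ⟨1, zero_le_one, fun d r h => by
  obtain ⟨-, -, a, b, -⟩ := d.mu_bd h
  rwa [Complex.norm_real, Real.norm_eq_abs, abs_of_pos (by linarith)]⟩
theorem add (h : Bc c) (h' : Bc e) : Bc fun d r => c d r + e d r :=
  let ⟨K, k, h⟩ := h
  let ⟨L, l, h'⟩ := h'
  ⟨K + L, add_nonneg k l, fun d r z => (norm_add_le _ _).trans (add_le_add (h d r z) (h' d r z))⟩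
theorem mul (h : Bc c) (h' : Bc e) : Bc fun d r => c d r * e d r :=
  let ⟨K, k, h⟩ := h
  let ⟨L, l, h'⟩ := h'
  ⟨K * L, mul_nonneg k l, fun d r z =>
    (norm_mul_le _ _).trans (mul_le_mul (h d r z) (h' d r z) (norm_nonneg _) k)⟩

end Bc

/-- Vectors bounded by a density. -/
def Bq (g : Dt B η → ℝ → ℝ) (u : (d : Dt B η) → ℝ → d.S) : Prop :=
  ∃ K, 0 ≤ K ∧ ∀ d r, 4 * B + 1 < r → ‖u d r‖ ^ 2 ≤ K * g d r

namespace Bq

variable {g : Dt B η → ℝ → ℝ} {u v : (d : Dt B η) → ℝ → d.S} {c : Dt B η → ℝ → ℂ}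

theorem of (h : ∀ d r, 4 * B + 1 < r → ‖u d r‖ ^ 2 ≤ g d r) : Bq g u :=
  ⟨1, zero_le_one, fun d r z => by rw [one_mul]; exact h d r z⟩
theorem le (h : Bq g u) {L : ℝ} (e : ∀ d r, 4 * B + 1 < r → ‖v d r‖ ≤ L * ‖u d r‖) : Bq g v :=
  let ⟨K, k, h⟩ := h
  ⟨L ^ 2 * K, by positivity, fun d r z => (pow_le_pow_left₀ (norm_nonneg _) (e d r z) 2).trans (by
    rw [mul_pow, mul_assoc]; exact mul_le_mul_of_nonneg_left (h d r z) (sq_nonneg _))⟩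
theorem smul (hc : Bc c) (h : Bq g u) : Bq g fun d r => c d r • u d r :=
  let ⟨K, _, k⟩ := hc
  h.le (L := K) fun d r z =>
    (norm_smul_le _ _).trans (mul_le_mul_of_nonneg_right (k d r z) (norm_nonneg _))
theorem add (h : Bq g u) (h' : Bq g v) : Bq g fun d r => u d r + v d r :=
  let ⟨K, k, h⟩ := h
  let ⟨L, l, h'⟩ := h'
  ⟨2 * K + 2 * L, by positivity, fun d r z =>
    (sq_G (P := u d r) (Z := v d r) (u := v d r) (K := 1) (by simp)).trans (by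
      linarith [h d r z, h' d r z])⟩
theorem congr (h : Bq g u) (e : ∀ d r, 4 * B + 1 < r → v d r = u d r) : Bq g v :=
  h.le (L := 1) fun d r z => by rw [e d r z, one_mul]

end Bq

theorem abs_pt {r t w f c C y z n T h γ1 γ2 μ a1 a2 : ℝ} (rt : r * t = 1) (t0 : 0 < t) (f0 : 0 < f)
    (fw : f ≤ w) (c0 : 0 < c) (z0 : 0 ≤ z) (g0 : 0 ≤ γ1) (T0 : 0 ≤ T) (μ0 : 0 ≤ μ) (μ1 : μ ≤ 1)
    (h1 : a1 ≤ z * γ1) (h2 : -(y * γ2) ≤ a2)
    (g1 : γ1 ^ 2 ≤ C * t ^ 4 * (z ^ 2 + y ^ 2 + t ^ 2 * n ^ 2 + T) + h)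
    (g2 : γ2 ^ 2 ≤ C * t ^ 4 * (z ^ 2 + y ^ 2 + t ^ 2 * n ^ 2 + T) + h)
    (s1 : 8 * C * w * t ^ 2 ≤ c ^ 2 * f) (s2 : 8 * C * w * t * T ≤ c ^ 2 * T) :
    -(c / 2 * (w * t * (y ^ 2 + t ^ 2 * n ^ 2) + f * t * z ^ 2 + t ^ 2 * T)) - 2 / c * (w * r * h) ≤
      w * a2 - f * μ * a1 := by
  have r0 : 0 < r := by by_contra k; nlinarith
  have w0 : 0 < w := by linarith
  have b1 : f * μ * a1 ≤ f * (z * γ1) :=
    (mul_le_mul_of_nonneg_left h1 (by positivity)).trans (mul_le_mul_of_nonneg_right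
      (mul_le_of_le_one_right f0.le μ1) (by positivity))
  have b2 := mul_le_mul_of_nonneg_left h2 w0.le
  have y1 : ∀ p q : ℝ, 4 * c * (p * q) ≤ c ^ 2 * t * p ^ 2 + 4 * r * q ^ 2 := fun p q => by
    have := mul_nonneg t0.le (sq_nonneg (c * p - 2 * r * q))
    have e1 : t * (c * p - 2 * r * q) ^ 2 = c ^ 2 * t * p ^ 2 - 4 * c * (p * q) * (r * t) +
      4 * r * q ^ 2 * (r * t) := by ring
    rw [e1, rt] at this
    linarith
  have b3 := mul_le_mul_of_nonneg_left (y1 z γ1) f0.le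
  have b4 := mul_le_mul_of_nonneg_left (y1 y γ2) w0.le
  have b5 := mul_le_mul_of_nonneg_right fw (by positivity : 0 ≤ r * γ1 ^ 2)
  have b6 := mul_le_mul_of_nonneg_left (add_le_add g1 g2) (by positivity : 0 ≤ w * r)
  have b7 := mul_le_mul_of_nonneg_right s1
    (by positivity : 0 ≤ t * (z ^ 2 + y ^ 2 + t ^ 2 * n ^ 2))
  have b8 := mul_le_mul_of_nonneg_right s2 (sq_nonneg t)
  have b9 := mul_le_mul_of_nonneg_right fw (by positivity : 0 ≤ c ^ 2 * t * (y ^ 2 + t ^ 2 * n ^ 2))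
  have e2 : w * r * (C * t ^ 4 * (z ^ 2 + y ^ 2 + t ^ 2 * n ^ 2 + T)) =
      w * (C * t ^ 3 * (z ^ 2 + y ^ 2 + t ^ 2 * n ^ 2 + T)) * (r * t) := by ring
  rw [rt] at e2
  have q1 : 0 ≤ c ^ 2 * (w * t * (t ^ 2 * n ^ 2)) := by positivity
  have q2 : 0 ≤ c ^ 2 * (t ^ 2 * T) := by positivity
  have c1 := mul_le_mul_of_nonneg_left b1 c0.le
  have c2 := mul_le_mul_of_nonneg_left b2 c0.le
  refine le_of_mul_le_mul_left ?_ c0
  rw [mul_sub, ← mul_assoc c (2 / c), mul_div_cancel₀ _ c0.ne']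
  linarith

end Vale.Agent.P354XN
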