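import Vale.Agent.P354XN.Near

/-!
A calculus of radial jets outside of the radius 4 B + 1.
-/

open scoped ContDiff InnerProductSpace
open Complex (I)
open Set Filter Topology Vale.Agent.P354BF

noncomputable section

namespace Vale.Agent.P354XN

section dw

variable {S : Type} [NormedAddCommGroup S] [InnerProductSpace ℂ S] {A : Ang S} {u v : ℝ → S}
  {u1 v1 : S} {r : ℝ}

/-- Operators which commute with the radial derivative. -/
def Gd (A : Ang S) (T : S →ₗ[ℂ] S) : Prop :=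
  ∀ v, A.Sm v → ∀ r, HasDerivAt (fun t => T (v t)) (T (deriv v r)) r

/-- The derivative of a curve and of its images at one point. -/
def Dw (A : Ang S) (u : ℝ → S) (u1 : S) (r : ℝ) : Prop :=
  ∀ T, Gd A T → HasDerivAt (fun t => T (u t)) (T u1) r

theorem dw_sm (hv : A.Sm v) (r : ℝ) : Dw A v (deriv v r) r := fun _ h => h v hv r

theorem Dw.has (h : Dw A u u1 r) : HasDerivAt u u1 r := h LinearMap.id fun _ hv r => hv.has r

theorem Dw.dl (hA : A.Is) (h : Dw A u u1 r) : Dl A u u1 r :=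
  ⟨h.has, fun i => h _ fun _ hv r => (dl_sm hA hv r).2 i⟩

theorem Dw.lop (hA : A.Is) (h : Dw A u u1 r) (k a : ℝ) (om : ℂ) (m : ℝ) :
    HasDerivAt (fun t => A.lop k a om m (u t)) (A.lop k a om m u1) r :=
  h _ fun _ hv r => hA.deriv_lop hv k a om m r ▸ (hA.sm_lop hv k a om m).has r

theorem Dw.add (hu : Dw A u u1 r) (hv : Dw A v v1 r) : Dw A (fun t => u t + v t) (u1 + v1) r :=
  fun T h => by simpa only [map_add] using (hu T h).fun_add (hv T h)

theorem Dw.smul {c : ℝ → ℂ} {c1 : ℂ} (hc : HasDerivAt c c1 r) (hu : Dw A u u1 r) :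
    Dw A (fun t => c t • u t) (c r • u1 + c1 • u r) r :=
  fun T h => by simpa only [map_add, map_smul] using hc.fun_smul (hu T h)

theorem Dw.congr (hu : Dw A u u1 r) (e : ∀ᶠ t in 𝓝 r, v t = u t) : Dw A v u1 r :=
  fun T h => (hu T h).congr_of_eventuallyEq (e.mono fun _ e => congrArg T e)

end dw

variable {B η : ℝ}

theorem Dt.one (d : Dt B η) {r : ℝ} (h : 4 * B + 1 < r) : 1 < r := by linarith [d.par.B0]

theorem Dt.r_ne (d : Dt B η) {r : ℝ} (h : 4 * B + 1 < r) : (r : ℂ) ≠ 0 :=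
  Complex.ofReal_ne_zero.2 (by linarith [d.one h])

theorem Dt.De1 (d : Dt B η) {r : ℝ} (h : 4 * B + 1 < r) : 1 ≤ De d.M d.a r :=
  d.par.one_le (by linarith [d.par.B0])

theorem Dt.De_ne (d : Dt B η) {r : ℝ} (h : 4 * B + 1 < r) : (De d.M d.a r : ℂ) ≠ 0 :=
  Complex.ofReal_ne_zero.2 (by linarith [d.De1 h])

theorem ev {r : ℝ} (h : 4 * B + 1 < r) : ∀ᶠ t in 𝓝 r, 4 * B + 1 < t := Ioi_mem_nhds h

/-- The coefficients. -/
inductive Co : (Dt B η → ℝ → ℂ) → Prop
  | cst (c : Dt B η → ℂ) (K : ℝ) (h : ∀ d, ‖c d‖ ≤ K) : Co fun d _ => c d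
  | id : Co fun _ r => r
  | inv : Co fun _ r => (r : ℂ)⁻¹
  | inD : Co fun d r => (De d.M d.a r : ℂ)⁻¹
  | add {c e} : Co c → Co e → Co fun d r => c d r + e d r
  | mul {c e} : Co c → Co e → Co fun d r => c d r * e d r
  | congr {c e} : Co c → (∀ d r, 4 * B + 1 < r → e d r = c d r) → Co e

namespace Co

variable {c e : Dt B η → ℝ → ℂ}

theorem num (z : ℂ) : Co fun (_ : Dt B η) _ => z := cst (fun _ => z) ‖z‖ fun _ => le_rfl
theorem M : Co fun (d : Dt B η) _ => (d.M : ℂ) := cst (fun d => (d.M : ℂ)) B fun d => by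
  rw [Complex.norm_real, Real.norm_eq_abs, abs_of_pos d.par.M0]; exact d.par.MB
theorem a : Co fun (d : Dt B η) _ => (d.a : ℂ) :=
  cst (fun d => (d.a : ℂ)) B fun d => (Complex.norm_real _).trans_le d.par.aB
theorem m : Co fun (d : Dt B η) _ => (d.m : ℂ) :=
  cst (fun d => (d.m : ℂ)) B fun d => (Complex.norm_real _).trans_le d.par.mB
theorem om : Co fun (d : Dt B η) _ => d.om := cst (fun d => d.om) B fun d => d.par.oB

theorem neg (h : Co c) : Co fun d r => -c d r := ((num (-1)).mul h).congr fun _ _ _ => by ring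
theorem sub (h : Co c) (h' : Co e) : Co fun d r => c d r - e d r :=
  (h.add h'.neg).congr fun _ _ _ => by ring
theorem pow (h : Co c) (n : ℕ) : Co fun d r => c d r ^ n := by
  induction n with
  | zero => exact (num 1).congr fun _ _ _ => pow_zero _
  | succ n ih => exact (ih.mul h).congr fun _ _ _ => pow_succ _ _

theorem De : Co fun (d : Dt B η) r => (De d.M d.a r : ℂ) :=
  (((id.pow 2).sub (((num 2).mul M).mul id)).add (a.pow 2)).congr fun _ _ _ => by simp [P354BF.De]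
theorem Kf : Co fun (d : Dt B η) r => Kf d.a d.om d.m r :=
  (om.mul ((id.pow 2).add (a.pow 2))).sub (a.mul m)

theorem der (h : Co c) : ∃ c', Co c' ∧ ∀ d r, 4 * B + 1 < r → HasDerivAt (c d) (c' d r) r := by
  induction h with
  | cst c K h => exact ⟨_, num 0, fun d r _ => hasDerivAt_const r _⟩
  | id => exact ⟨_, num 1, fun d r _ => (hasDerivAt_id r).ofReal_comp⟩
  | inv => exact ⟨_, (inv.mul inv).neg, fun d r h =>
      ((hasDerivAt_id r).ofReal_comp.fun_inv (d.r_ne h)).congr_deriv (by simp [div_eq_mul_inv, sq])⟩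
  | inD => exact ⟨_, ((((num 2).mul id).sub ((num 2).mul M)).mul (inD.mul inD)).neg, fun d r h =>
      ((der_De d.M d.a r).ofReal_comp.fun_inv (d.De_ne h)).congr_deriv (by
        simp only [div_eq_mul_inv, sq, mul_inv]; push_cast; ring)⟩
  | add _ _ i j =>
    obtain ⟨c', h1, h2⟩ := i
    obtain ⟨e', h3, h4⟩ := j
    exact ⟨_, h1.add h3, fun d r h => (h2 d r h).fun_add (h4 d r h)⟩
  | mul hc he i j =>
    obtain ⟨c', h1, h2⟩ := i
    obtain ⟨e', h3, h4⟩ := j
    exact ⟨_, (h1.mul he).add (hc.mul h3), fun d r h => (h2 d r h).fun_mul (h4 d r h)⟩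
  | congr _ e i =>
    obtain ⟨c', h1, h2⟩ := i
    exact ⟨_, h1, fun d r h => (h2 d r h).congr_of_eventuallyEq ((ev h).mono (e d))⟩

theorem bd (h : Co c) (y : ℝ) : ∃ K, 0 ≤ K ∧ ∀ d r, 4 * B + 1 < r → r ≤ y → ‖c d r‖ ≤ K := by
  induction h with
  | cst c K h => exact ⟨|K|, abs_nonneg _, fun d _ _ _ => (h d).trans (le_abs_self _)⟩
  | id => exact ⟨|y|, abs_nonneg _, fun d r h h' => by
      rw [Complex.norm_real, Real.norm_eq_abs, abs_of_pos (by linarith [d.one h])]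
      exact h'.trans (le_abs_self _)⟩
  | inv => exact ⟨1, zero_le_one, fun d r h _ => by
      rw [norm_inv, Complex.norm_real, Real.norm_eq_abs, abs_of_pos (by linarith [d.one h])]
      exact inv_le_one_of_one_le₀ (d.one h).le⟩
  | inD => exact ⟨1, zero_le_one, fun d r h _ => by
      rw [norm_inv, Complex.norm_real, Real.norm_eq_abs, abs_of_pos (by linarith [d.De1 h])]
      exact inv_le_one_of_one_le₀ (d.De1 h)⟩
  | add _ _ i j =>
    obtain ⟨K, k0, h1⟩ := i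
    obtain ⟨L, l0, h2⟩ := j
    exact ⟨K + L, add_nonneg k0 l0, fun d r h h' =>
      (norm_add_le _ _).trans (add_le_add (h1 d r h h') (h2 d r h h'))⟩
  | mul _ _ i j =>
    obtain ⟨K, k0, h1⟩ := i
    obtain ⟨L, l0, h2⟩ := j
    exact ⟨K * L, mul_nonneg k0 l0, fun d r h h' =>
      (norm_mul_le _ _).trans (mul_le_mul (h1 d r h h') (h2 d r h h') (norm_nonneg _) k0)⟩
  | congr _ e i => exact i.imp fun K k => ⟨k.1, fun d r h h' => e d r h ▸ k.2 d r h h'⟩

end Co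

/-- Jets of order at most k of the curve g. -/
inductive Jt (g : (d : Dt B η) → ℝ → d.S) (k : ℕ) : ((d : Dt B η) → ℝ → d.S) → Prop
  | gen (j : ℕ) (h : j ≤ k) : Jt g k fun d => iteratedDeriv j (g d)
  | smul {c u} : Co c → Jt g k u → Jt g k fun d r => c d r • u d r
  | add {u v} : Jt g k u → Jt g k v → Jt g k fun d r => u d r + v d r
  | congr {u v} : Jt g k u → (∀ d r, 4 * B + 1 < r → v d r = u d r) → Jt g k v

namespace Jt

variable {g u : (d : Dt B η) → ℝ → d.S} {k l : ℕ}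

theorem zero (g : (d : Dt B η) → ℝ → d.S) : Jt g 0 g := gen 0 le_rfl

theorem mono (h : Jt g k u) (hk : k ≤ l) : Jt g l u := by
  induction h with
  | gen j h => exact gen j (h.trans hk)
  | smul c _ i => exact smul c i
  | add _ _ i j => exact add i j
  | congr _ e i => exact congr i e

theorem der' (hg : ∀ d : Dt B η, d.A.Sm (g d)) (h : Jt g k u) :
    ∃ u', Jt g (k + 1) u' ∧ ∀ (d : Dt B η) r, 4 * B + 1 < r → Dw d.A (u d) (u' d r) r := by
  induction h with
  | gen j h => exact ⟨_, gen (j + 1) (by omega), fun d r _ => by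
      rw [iteratedDeriv_succ]; exact dw_sm (d.is.sm_iter (hg d) j) r⟩
  | smul hc hu i =>
    obtain ⟨u', h1, h2⟩ := i
    obtain ⟨c', h3, h4⟩ := hc.der
    exact ⟨_, (smul hc h1).add (smul h3 (hu.mono k.le_succ)), fun d r h =>
      (h2 d r h).smul (h4 d r h)⟩
  | add _ _ i j =>
    obtain ⟨u', h1, h2⟩ := i
    obtain ⟨v', h3, h4⟩ := j
    exact ⟨_, h1.add h3, fun d r h => (h2 d r h).add (h4 d r h)⟩
  | congr _ e i =>
    obtain ⟨u', h1, h2⟩ := i
    exact ⟨_, h1, fun d r h => (h2 d r h).congr ((ev h).mono (e d))⟩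

theorem dw (hg : ∀ d : Dt B η, d.A.Sm (g d)) (h : Jt g k u) (d : Dt B η) {r : ℝ} (hr : 4 * B + 1 < r) :
    Dw d.A (u d) (deriv (u d) r) r :=
  let ⟨_, _, h2⟩ := h.der' hg
  (h2 d r hr).has.deriv ▸ h2 d r hr

theorem der (hg : ∀ d : Dt B η, d.A.Sm (g d)) (h : Jt g k u) : Jt g (k + 1) fun d => deriv (u d) :=
  let ⟨_, h1, h2⟩ := h.der' hg
  h1.congr fun d r hr => (h2 d r hr).has.deriv

theorem Dd (hg : ∀ d : Dt B η, d.A.Sm (g d)) (h : Jt g k u) :
    Jt g (k + 1) fun d => Dd d.M d.a d.om d.m (u d) :=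
  ((h.der hg).add (smul (((Co.num (2 * I)).mul Co.Kf).mul Co.inD).neg (h.mono k.le_succ))).congr
    fun d r _ => by rw [P354XN.Dd, neg_smul, sub_eq_add_neg, div_eq_mul_inv]

theorem up (hg : ∀ d : Dt B η, d.A.Sm (g d)) (h : Jt g k u) :
    Jt g (k + 1) fun d => up d.M d.a d.om d.m (u d) := smul (Co.id.pow 2) (h.Dd hg)

theorem cont (hg : ∀ d : Dt B η, d.A.Sm (g d)) (h : Jt g k u) (d : Dt B η) {x y : ℝ} (hx : 4 * B + 1 < x) :
    ContinuousOn (u d) (Icc x y) := fun _ hr =>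
  (h.dw hg d (hx.trans_le hr.1)).has.continuousAt.continuousWithinAt

theorem bd' (h : Jt g k u) (N : (d : Dt B η) → d.S → ℝ) (N0 : ∀ d z, 0 ≤ N d z)
    (Ns : ∀ d (c : ℂ) z, N d (c • z) = ‖c‖ ^ 2 * N d z)
    (Na : ∀ d z w, N d (z + w) ≤ 2 * N d z + 2 * N d w) (y : ℝ) :
    ∃ K, 0 ≤ K ∧ ∀ d r, 4 * B + 1 < r → r ≤ y →
      N d (u d r) ≤ K * ∑ j ∈ Finset.range (k + 1), N d (iteratedDeriv j (g d) r) := by
  induction h with
  | gen j h => exact ⟨1, zero_le_one, fun d r _ _ => by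
      rw [one_mul]
      exact Finset.single_le_sum (f := fun j => N d (iteratedDeriv j (g d) r)) (fun _ _ => N0 _ _)
        (Finset.mem_range.2 (by omega))⟩
  | smul hc _ i =>
    obtain ⟨K, k0, h1⟩ := i
    obtain ⟨L, l0, h2⟩ := hc.bd y
    exact ⟨L ^ 2 * K, by positivity, fun d r h h' => by
      rw [Ns, mul_assoc]
      exact mul_le_mul (pow_le_pow_left₀ (norm_nonneg _) (h2 d r h h') 2) (h1 d r h h') (N0 _ _)
        (sq_nonneg _)⟩
  | add _ _ i j =>
    obtain ⟨K, k0, h1⟩ := i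
    obtain ⟨L, l0, h2⟩ := j
    exact ⟨2 * K + 2 * L, by positivity, fun d r h h' => (Na _ _ _).trans (by
      linarith [h1 d r h h', h2 d r h h'])⟩
  | congr _ e i => exact i.imp fun K k => ⟨k.1, fun d r h h' => e d r h ▸ k.2 d r h h'⟩

theorem bdw (h : Jt g k u) (y : ℝ) :
    ∃ K, 0 ≤ K ∧ ∀ d r, 4 * B + 1 < r → r ≤ y → ‖u d r‖ ^ 2 ≤ K * wd k (g d) r :=
  h.bd' (fun _ z => ‖z‖ ^ 2) (fun _ _ => sq_nonneg _) (fun _ _ _ => by rw [norm_smul, mul_pow])
    (fun _ z w => by simpa using sq_G (P := z) (Z := w) (u := w) (K := 1) (by simp)) y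

theorem bda (h : Jt g k u) (y : ℝ) :
    ∃ K, 0 ≤ K ∧ ∀ d r, 4 * B + 1 < r → r ≤ y → An d.A (u d r) ≤ K * ad d.A k (g d) r :=
  h.bd' (fun d z => An d.A z) (fun _ _ => An_nonneg _) (fun _ => An_smul) (fun _ => An_add) y

end Jt

end Vale.Agent.P354XN
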