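import Vale.Agent.P354XN.Red

/-!
The estimate of the near zone.
-/

open scoped ContDiff InnerProductSpace
open Complex (I)
open MeasureTheory Set intervalIntegral Vale.Agent.P354BF

noncomputable section

namespace Vale.Agent.P354XN

section den

variable {S : Type} [NormedAddCommGroup S] [InnerProductSpace ℂ S] {A : Ang S} {v : ℝ → S}

/-- The densities of the norms. -/
def wd (k : ℕ) (v : ℝ → S) (r : ℝ) : ℝ := ∑ j ∈ Finset.range (k + 1), ‖iteratedDeriv j v r‖ ^ 2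
def ad (A : Ang S) (k : ℕ) (v : ℝ → S) (r : ℝ) : ℝ :=
  ∑ j ∈ Finset.range (k + 1), An A (iteratedDeriv j v r)

theorem wd_nonneg (k : ℕ) (v : ℝ → S) (r : ℝ) : 0 ≤ wd k v r :=
  Finset.sum_nonneg fun _ _ => sq_nonneg _

theorem ad_nonneg (k : ℕ) (v : ℝ → S) (r : ℝ) : 0 ≤ ad A k v r :=
  Finset.sum_nonneg fun _ _ => An_nonneg _

theorem wd_cont (hv : A.Sm v) (k : ℕ) : Continuous (wd k v) :=
  continuous_finsetSum _ fun j _ => (iter_cont hv.cd j).norm.pow 2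

theorem ad_cont (h : A.Is) (hv : A.Sm v) (k : ℕ) : Continuous (ad A k v) :=
  continuous_finsetSum _ fun j _ => cont_An (h.sm_iter hv j)

theorem W_eq (hv : A.Sm v) (k : ℕ) (x y : ℝ) : W k v x y = ∫ r in x..y, wd k v r :=
  (integral_finsetSum fun j _ => ((iter_cont hv.cd j).norm.pow 2).intervalIntegrable _ _).symm

theorem WL_eq (h : A.Is) (hv : A.Sm v) (k : ℕ) (x y : ℝ) :
    A.WL k v x y = ∫ r in x..y, ad A k v r := by
  simp only [Ang.WL, fun i => W_eq (hv.L i)]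
  rw [← integral_finsetSum fun i _ => (wd_cont (hv.L i) k).intervalIntegrable _ _]
  refine integral_congr fun r _ => ?_
  simp only [wd, ad, An, h.iter_L hv]
  exact Finset.sum_comm

theorem it2 (v : ℝ → S) : iteratedDeriv 2 v = deriv (deriv v) := by
  rw [iteratedDeriv_succ, iteratedDeriv_one]

theorem it3 (v : ℝ → S) : iteratedDeriv 3 v = deriv (deriv (deriv v)) := by
  rw [iteratedDeriv_succ, it2]

theorem wd2 (v : ℝ → S) (r : ℝ) :
    wd 2 v r = ‖v r‖ ^ 2 + ‖deriv v r‖ ^ 2 + ‖deriv (deriv v) r‖ ^ 2 := by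
  simp [wd, Finset.sum_range_succ, it2]

theorem wd3 (v : ℝ → S) (r : ℝ) : wd 3 v r = wd 2 v r + ‖deriv (deriv (deriv v)) r‖ ^ 2 := by
  rw [wd, Finset.sum_range_succ, it3]; rfl

theorem ad2 (v : ℝ → S) (r : ℝ) :
    ad A 2 v r = An A (v r) + An A (deriv v r) + An A (deriv (deriv v) r) := by
  simp [ad, Finset.sum_range_succ, it2]

end den

variable {B η σ s x y r : ℝ}

theorem Le.int {f g : Dt B η → ℝ → ℝ} {x y : Dt B η → ℝ} (hxy : ∀ d, x d ≤ y d)
    (cf : ∀ d, ContinuousOn (f d) (Icc (x d) (y d))) (cg : ∀ d, ContinuousOn (g d) (Icc (x d) (y d)))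
    {K : ℝ} (K0 : 0 ≤ K) (h : ∀ d, ∀ r ∈ Icc (x d) (y d), f d r ≤ K * g d r) :
    Le (fun d => ∫ r in x d..y d, f d r) fun d => ∫ r in x d..y d, g d r :=
  ⟨K, K0, fun d => by
    rw [← intervalIntegral.integral_const_mul]
    exact integral_mono_on (hxy d) (ii (hxy d) (cf d)) ((ii (hxy d) (cg d)).const_mul _) (h d)⟩

/-- The left and the right side of the near estimate. -/
def Dt.lh (d : Dt B η) (r : ℝ) : ℝ := wd 3 d.v r + ad d.A 2 d.v r
def Dt.rh (d : Dt B η) (s r : ℝ) : ℝ := wd 2 d.v r + wd 2 (d.P s) r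

theorem Dt.lh_cont (d : Dt B η) : Continuous d.lh := (wd_cont d.sm 3).add (ad_cont d.is d.sm 2)
theorem Dt.rh_cont (d : Dt B η) (s : ℝ) : Continuous (d.rh s) :=
  (wd_cont d.sm 2).add (wd_cont (d.smP s) 2)
theorem Dt.lh0 (d : Dt B η) (r : ℝ) : 0 ≤ d.lh r := add_nonneg (wd_nonneg _ _ _) (ad_nonneg _ _ _)
theorem Dt.rh0 (d : Dt B η) (s r : ℝ) : 0 ≤ d.rh s r :=
  add_nonneg (wd_nonneg _ _ _) (wd_nonneg _ _ _)

theorem co_le (d : Dt B η) (hσ : |σ| ≤ 4) : ‖2 * I * d.om * (1 - 2 * σ : ℝ)‖ ≤ 18 * B := by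
  have s1 := abs_le.1 hσ
  have : |1 - 2 * σ| ≤ 9 := abs_le.2 ⟨by linarith, by linarith⟩
  have := d.par.B0
  simp only [norm_mul, Complex.norm_real, Real.norm_eq_abs, Complex.norm_I, Complex.norm_ofNat]
  calc _ ≤ 2 * 1 * B * 9 := by gcongr; exact d.par.oB
    _ = _ := by ring

theorem P1 (d : Dt B η) (σ : ℝ) : d.der.P (σ - 1) =
    fun r => deriv (d.P σ) r + (2 * I * d.om * (1 - 2 * σ : ℝ)) • d.v r :=
  funext fun r => P_deriv d.is d.sm σ d.k d.M d.a d.om d.m r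

theorem P1_le (d : Dt B η) (hσ : |σ| ≤ 4) (r : ℝ) :
    ‖d.der.P (σ - 1) r‖ ^ 2 ≤ 2 * ‖deriv (d.P σ) r‖ ^ 2 + 2 * (18 * B) ^ 2 * ‖d.v r‖ ^ 2 := by
  rw [P1]
  exact sq_G ((norm_smul_le _ _).trans (mul_le_mul_of_nonneg_right (co_le d hσ) (norm_nonneg _)))

theorem P2_le (d : Dt B η) (hs : |s| ≤ 2) (r : ℝ) : ‖d.der.der.P (s - 1 - 1) r‖ ^ 2 ≤
    2 * ‖deriv (deriv (d.P s)) r‖ ^ 2 + 2 * (36 * B) ^ 2 * ‖deriv d.v r‖ ^ 2 := by
  have s1 := abs_le.1 hs
  have e := (((d.is.sm_deriv (d.smP s)).has r).add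
    ((d.sm.has r).const_smul (2 * I * d.om * (1 - 2 * s : ℝ)))).deriv
  have e2 : (d.der.der.P (s - 1 - 1) r : d.S) = deriv (deriv (d.P s)) r +
      ((2 * I * d.om * (1 - 2 * s : ℝ)) • deriv d.v r +
        (2 * I * d.om * (1 - 2 * (s - 1) : ℝ)) • deriv d.v r) := by
    rw [← add_assoc, ← e, P1, P1]; rfl
  refine (congrArg (fun z : d.S => ‖z‖ ^ 2) e2).trans_le ?_
  refine sq_G ((norm_add_le _ _).trans ?_)
  have a := mul_le_mul_of_nonneg_right (co_le (σ := s) d (by linarith)) (norm_nonneg (deriv d.v r))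
  have b := mul_le_mul_of_nonneg_right (co_le (σ := s - 1) d (abs_le.2 ⟨by linarith, by linarith⟩))
    (norm_nonneg (deriv d.v r))
  rw [norm_smul, norm_smul]
  exact (add_le_add a b).trans_eq (by ring)

theorem An_pt (hη : 0 < η) (y : ℝ) : ∃ K, 0 ≤ K ∧ ∀ (d : Dt B η) (σ : ℝ), |σ| ≤ 4 →
    ∀ r ∈ Icc d.r0 y, An d.A (d.v r) ≤ K * (wd 2 d.v r + ‖d.P σ r‖ ^ 2) := by
  obtain ⟨K, K1, hK⟩ := bd (B := B) hη y
  refine ⟨3 * K, by linarith, fun d σ hσ r hr => ?_⟩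
  obtain ⟨k1, -, k3, k4⟩ := hK d σ hσ r hr
  have e := congrArg (ri (d.v r)) (P_eq d.A σ d.k d.M d.a d.om d.m d.v r)
  rw [ri_sub, ri_cas d.is, ri_add, ri_add (d.v r) ((De d.M d.a r : ℂ) • _)] at e
  have a1 := bd3 (α := De d.M d.a r) (K := K) (by rwa [Complex.norm_real]) (d.v r) (deriv (deriv d.v) r)
  have a2 := bd3 k3 (d.v r) (deriv d.v r)
  have a3 := le_ri (d.v r) (d.P σ r)
  have a4 := (neg_le_neg (mul_le_mul_of_nonneg_left (k4 (d.v r)) (norm_nonneg (d.v r)))).trans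
    (le_ri _ _)
  have K0 : 0 ≤ K := by linarith
  have b1 := mul_nonneg K0 (sq_nonneg (‖d.v r‖ - ‖deriv (deriv d.v) r‖))
  have b2 := mul_nonneg K0 (sq_nonneg (‖d.v r‖ - ‖deriv d.v r‖))
  have b3 := mul_nonneg K0 (sq_nonneg (‖d.v r‖ - ‖d.P σ r‖))
  have b4 := mul_le_mul_of_nonneg_right K1 (mul_nonneg (norm_nonneg (d.v r)) (norm_nonneg (d.P σ r)))
  have b5 := mul_nonneg K0 (sq_nonneg ‖deriv (deriv d.v) r‖)
  have b6 := mul_nonneg K0 (sq_nonneg ‖deriv d.v r‖)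
  have b7 := mul_nonneg K0 (sq_nonneg ‖d.P σ r‖)
  have b8 := mul_nonneg K0 (sq_nonneg ‖d.v r‖)
  rw [wd2]
  linarith

/-- The estimate of the near zone. -/
theorem near (hη : 0 < η) (hs : |s| ≤ 2) (hy : (4 * B ^ 2 + 1) / η + 2 * B ≤ y) :
    Le (fun d : Dt B η => ∫ r in d.r0..y, d.lh r) fun d => ∫ r in d.r0..y + 1, d.rh s r := by
  have s1 := abs_le.1 hs
  have T0 : 0 < (4 * B ^ 2 + 1) / η := by positivity
  have r1 : ∀ d : Dt B η, d.r0 ≤ y := fun d => by linarith [d.par.r0_le]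
  have s2 := fun d : Dt B η => d.is.sm_deriv (d.is.sm_deriv d.sm)
  have c2 := fun d : Dt B η => (s2 d).cont
  have c3 := fun d : Dt B η => (d.is.sm_deriv (s2 d)).cont
  have cA := fun d : Dt B η => cont_An (s2 d)
  have a1 : Le (fun d : Dt B η => ∫ r in d.r0..y + 1,
      (‖deriv (deriv d.v) r‖ ^ 2 + ‖d.der.der.P (s - 1 - 1) r‖ ^ 2))
      fun d => ∫ r in d.r0..y + 1, d.rh s r :=
    Le.int (fun d => by linarith [r1 d]) (fun d => (((c2 d).norm.pow 2).add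
      ((d.der.der.smP _).cont.norm.pow 2)).continuousOn) (fun d => (d.rh_cont s).continuousOn)
      (K := 2 + 2 * (36 * B) ^ 2) (by positivity) fun d r _ => by
        have := P2_le d hs r
        have : 0 ≤ (36 * B) ^ 2 * (‖d.v r‖ ^ 2 + ‖deriv (deriv d.v) r‖ ^ 2 + (‖d.P s r‖ ^ 2 +
          ‖deriv (d.P s) r‖ ^ 2 + ‖deriv (deriv (d.P s)) r‖ ^ 2)) := by positivity
        rw [Dt.rh, wd2, wd2]
        linarith [sq_nonneg ‖d.v r‖, sq_nonneg ‖deriv d.v r‖, sq_nonneg ‖deriv (deriv d.v) r‖,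
          sq_nonneg ‖d.P s r‖, sq_nonneg ‖deriv (d.P s) r‖]
  have a2 := (red hη (σ := s - 1 - 1) (by linarith) (by linarith) hy).der.der.trans a1
  have a0 : Le (fun d : Dt B η => ∫ r in d.r0..y, d.rh s r) fun d => ∫ r in d.r0..y + 1, d.rh s r :=
    Le.of fun d => int_sub (d.rh_cont s).continuousOn (fun r _ => d.rh0 s r) le_rfl (r1 d)
      (by linarith)
  obtain ⟨K, K0, hK⟩ := An_pt (B := B) hη y
  have a3 : Le (fun d : Dt B η => ∫ r in d.r0..y, d.lh r) fun d => ∫ r in d.r0..y,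
      (d.rh s r + (‖deriv (deriv (deriv d.v)) r‖ ^ 2 + An d.A (deriv (deriv d.v) r))) :=
    Le.int r1 (fun d => d.lh_cont.continuousOn)
      (fun d => ((d.rh_cont s).add (((c3 d).norm.pow 2).add (cA d))).continuousOn)
      (K := 1 + K * (2 + 2 * (18 * B) ^ 2)) (by positivity) fun d r hr => by
        have b1 := hK d s (by linarith) r hr
        have b2 : An d.A (deriv d.v r) ≤ K * (wd 2 (deriv d.v) r + ‖d.der.P (s - 1) r‖ ^ 2) :=
          hK d.der (s - 1) (abs_le.2 ⟨by linarith, by linarith⟩) r hr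
        have b3 := mul_le_mul_of_nonneg_left (P1_le (σ := s) d (by linarith) r) K0
        rw [wd2] at b1 b2
        rw [Dt.lh, Dt.rh, wd3, wd2, wd2, ad2]
        have q := An_nonneg (A := d.A) (deriv (deriv d.v) r)
        have q0 := sq_nonneg ‖d.v r‖
        have q1 := sq_nonneg ‖deriv d.v r‖
        have q2 := sq_nonneg ‖deriv (deriv d.v) r‖
        have q3 := sq_nonneg ‖deriv (deriv (deriv d.v)) r‖
        have p0 := sq_nonneg ‖d.P s r‖
        have p1 := sq_nonneg ‖deriv (d.P s) r‖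
        have p2 := sq_nonneg ‖deriv (deriv (d.P s)) r‖
        have m1 := mul_nonneg (mul_nonneg K0 (sq_nonneg (18 * B))) (add_nonneg (add_nonneg
          (add_nonneg q1 q2) (add_nonneg q3 q)) (add_nonneg (add_nonneg p0 p1) p2))
        have m2 := mul_nonneg K0 (add_nonneg (add_nonneg (add_nonneg q0 q3) (add_nonneg q q))
          (add_nonneg p0 (add_nonneg p2 p2)))
        linarith
  refine a3.trans ((a0.add a2).mono (fun d => le_of_eq ?_) fun _ => le_rfl)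
  exact integral_add ((d.rh_cont s).intervalIntegrable _ _)
    ((((c3 d).norm.pow 2).add (cA d)).intervalIntegrable _ _)

end Vale.Agent.P354XN
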