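import Vale.Agent.P354XN.Cur

/-!
The operator, its commutation with the radial derivative, bounds of the coefficients.
-/

open scoped ContDiff InnerProductSpace
open Complex (I)
open MeasureTheory Set intervalIntegral Vale.Agent.P354BF

noncomputable section

namespace Vale.Agent.P354XN

section op

variable {S : Type} [NormedAddCommGroup S] [InnerProductSpace ℂ S] {A : Ang S}
  {B η M a r0 k m σ r y : ℝ} {om : ℂ} {v : ℝ → S}

/-- The coefficients of the operator. -/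
def al (σ M a : ℝ) (om : ℂ) (m r : ℝ) : ℂ :=
  ((1 - σ) * (2 * r - 2 * M) : ℝ) - 2 * I * Kf a om m r
def be (σ : ℝ) (om : ℂ) (r : ℝ) : ℂ := 2 * I * om * r * (1 - 2 * σ : ℝ) - (σ ^ 2 - σ : ℝ)
def Eo (A : Ang S) (k a : ℝ) (om : ℂ) (m : ℝ) (u : S) : S := A.lop k a om m u - A.cas u

theorem P_eq (A : Ang S) (σ k M a : ℝ) (om : ℂ) (m : ℝ) (v : ℝ → S) (r : ℝ) :
    A.P σ k M a om m v r + (be σ om r • v r + Eo A k a om m (v r)) =
      (De M a r : ℂ) • deriv (deriv v) r + al σ M a om m r • deriv v r - A.cas (v r) := by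
  rw [Ang.P, al, be, Eo]; abel

theorem al_re (σ M a : ℝ) (om : ℂ) (m r : ℝ) :
    (al σ M a om m r).re = (1 - σ) * (2 * r - 2 * M) + 2 * om.im * (r ^ 2 + a ^ 2) := by
  simp [al, Kf, pow_two]; ring

theorem Par.B0 (p : Par B η M a r0 k om m) : 0 < B := p.M0.trans_le p.MB

theorem Par.r0_le (p : Par B η M a r0 k om m) : r0 ≤ 2 * B := by
  have := p.hi
  rw [De] at this
  by_contra c
  nlinarith [p.M0, p.MB, sq_nonneg a]

theorem Par.De_ge (p : Par B η M a r0 k om m) (r : ℝ) : -B ^ 2 ≤ De M a r := by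
  rw [De]; nlinarith [p.M0, p.MB, sq_nonneg a, sq_nonneg (r - M)]

theorem Par.one_le (p : Par B η M a r0 k om m) (h : 2 * B + 1 ≤ r) : 1 ≤ De M a r := by
  rw [De]; nlinarith [p.M0, p.MB, sq_nonneg a]

theorem Eo_le (h : A.Is) (p : Par B η M a r0 k om m) (u : S) :
    ‖Eo A k a om m u‖ ≤ ‖om‖ * (2 * B ^ 3 + 4 * B ^ 2) * ‖u‖ := by
  have e : Eo A k a om m u = om • (((a : ℂ) ^ 2 * om) • (u - A.w 2 (A.w 2 u)) -
      (2 * a * m : ℂ) • u + (2 * k * a : ℂ) • A.w 2 u) := by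
    rw [Eo, A.lop_apply]; module
  have b1 : ‖(a : ℂ) ^ 2 * om‖ ≤ B ^ 2 * B := by
    rw [norm_mul, norm_pow, Complex.norm_real, Real.norm_eq_abs]
    gcongr; exacts [p.aB, p.oB]
  have b2 : ‖(2 * a * m : ℂ)‖ ≤ 2 * B * B := by
    simp only [norm_mul, Complex.norm_real, Real.norm_eq_abs, Complex.norm_ofNat]
    have := p.B0
    gcongr; exacts [p.aB, p.mB]
  have b3 : ‖(2 * k * a : ℂ)‖ ≤ 2 * B * B := by
    simp only [norm_mul, Complex.norm_real, Real.norm_eq_abs, Complex.norm_ofNat]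
    have := p.B0
    gcongr; exacts [p.kB, p.aB]
  have b4 : ‖u - A.w 2 (A.w 2 u)‖ ≤ ‖u‖ + ‖u‖ :=
    (norm_sub_le _ _).trans (by gcongr; exact (h.w_le _ _).trans (h.w_le _ _))
  rw [e, norm_smul, mul_assoc ‖om‖]
  refine mul_le_mul_of_nonneg_left ((norm_add_le _ _).trans ?_) (norm_nonneg _)
  refine (add_le_add (norm_sub_le _ _) le_rfl).trans ?_
  rw [norm_smul, norm_smul, norm_smul]
  have := p.B0
  calc _ ≤ B ^ 2 * B * (‖u‖ + ‖u‖) + 2 * B * B * ‖u‖ + 2 * B * B * ‖u‖ := by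
        gcongr; exact h.w_le _ _
    _ = _ := by ring

theorem P_deriv (h : A.Is) (hv : A.Sm v) (σ k M a : ℝ) (om : ℂ) (m r : ℝ) :
    A.P (σ - 1) k M a om m (deriv v) r =
      deriv (A.P σ k M a om m v) r + (2 * I * om * (1 - 2 * σ : ℝ)) • v r := by
  have c := (hasDerivAt_id r).ofReal_comp
  have d0 := hv.has r
  have d1 := (h.sm_deriv hv).has r
  have d2 := (h.sm_deriv (h.sm_deriv hv)).has r
  have k1 : HasDerivAt (fun t => Kf a om m t) (om * (2 * r)) r :=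
    ((((c.pow 2).add_const _).const_mul om).sub_const _).congr_deriv (by simp)
  have k2 : HasDerivAt (fun t : ℝ => (((1 - σ) * (2 * t - 2 * M) : ℝ) : ℂ)) ((1 - σ) * 2 : ℝ) r :=
    (((((hasDerivAt_id r).const_mul 2).sub_const _).const_mul _).congr_deriv (by simp)).ofReal_comp
  have := ((((der_De M a r).ofReal_comp.smul d2).add ((k2.sub (k1.const_mul (2 * I))).smul d1)).sub
    (((((c.const_mul (2 * I * om)).mul_const ((1 - 2 * σ : ℝ) : ℂ)).sub_const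
      ((σ ^ 2 - σ : ℝ) : ℂ))).smul d0)).sub ((h.sm_lop hv k a om m).has r)
  rw [show deriv (A.P σ k M a om m v) r = _ from this.deriv, h.deriv_lop hv, Ang.P]
  simp only [Pi.sub_apply, id]
  push_cast
  module

end op

/-- The data of the estimates. -/
structure Dt (B η : ℝ) : Type 1 where
  S : Type
  [n : NormedAddCommGroup S]
  [i : InnerProductSpace ℂ S]
  A : Ang S
  is : A.Is
  s2 : |A.s| = 2
  M : ℝ
  a : ℝ
  r0 : ℝ
  k : ℝ
  om : ℂ
  m : ℝ
  par : Par B η M a r0 k om m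
  v : ℝ → S
  sm : A.Sm v

attribute [instance] Dt.n Dt.i

variable {B η σ x y r : ℝ}

/-- The derivative and the source. -/
def Dt.der (d : Dt B η) : Dt B η := { d with v := deriv d.v, sm := d.is.sm_deriv d.sm }
abbrev Dt.P (d : Dt B η) (σ : ℝ) : ℝ → d.S := d.A.P σ d.k d.M d.a d.om d.m d.v

theorem Dt.smP (d : Dt B η) (σ : ℝ) : d.A.Sm (d.P σ) := d.is.sm_P d.sm _ _ _ _ _ _

/-- Inequalities up to a constant. -/
def Le (f g : Dt B η → ℝ) : Prop := ∃ C, 0 ≤ C ∧ ∀ d, f d ≤ C * g d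

section le

variable {f g h f' : Dt B η → ℝ}

theorem Le.of (e : ∀ d, f d ≤ g d) : Le f g := ⟨1, zero_le_one, fun d => by rw [one_mul]; exact e d⟩

theorem Le.trans (e : Le f g) (e' : Le g h) : Le f h :=
  let ⟨C, c, e⟩ := e
  let ⟨C', c', e'⟩ := e'
  ⟨C * C', mul_nonneg c c', fun d => (e d).trans (by
    rw [mul_assoc]; exact mul_le_mul_of_nonneg_left (e' d) c)⟩

theorem Le.add (e : Le f g) (e' : Le f' g) : Le (fun d => f d + f' d) g :=
  let ⟨C, c, e⟩ := e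
  let ⟨C', c', e'⟩ := e'
  ⟨C + C', add_nonneg c c', fun d => by rw [add_mul]; exact add_le_add (e d) (e' d)⟩

theorem Le.der (e : Le f g) : Le (fun d => f d.der) fun d => g d.der :=
  e.imp fun _ c => ⟨c.1, fun d => c.2 d.der⟩

theorem Le.mono (e : Le f g) (e1 : ∀ d, f' d ≤ f d) (e2 : ∀ d, g d ≤ h d) : Le f' h :=
  ((Le.of e1).trans e).trans (Le.of e2)

end le

theorem bd (hη : 0 < η) (y : ℝ) : ∃ K, 1 ≤ K ∧ ∀ (d : Dt B η) (σ : ℝ), |σ| ≤ 4 → ∀ r ∈ Icc d.r0 y,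
    |De d.M d.a r| ≤ K ∧ |2 * r - 2 * d.M| ≤ K ∧ ‖al σ d.M d.a d.om d.m r‖ ≤ K ∧
      ∀ u, ‖be σ d.om r • u + Eo d.A d.k d.a d.om d.m u‖ ≤ K * ‖u‖ := by
  set b := |B| + |y| + 1 with hb
  have b1 : 1 ≤ b := by linarith [abs_nonneg B, abs_nonneg y]
  have b2 : b ≤ b ^ 2 := by nlinarith
  have b3 : b ^ 2 ≤ b ^ 3 := by nlinarith
  have b4 : b ^ 3 ≤ b ^ 4 := by nlinarith
  refine ⟨50 * b ^ 4, by linarith, fun d σ hσ r hr => ?_⟩
  have p := d.par
  have hB : B ≤ b := by linarith [le_abs_self B, abs_nonneg y]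
  have r0 : 0 < r := by linarith [p.lo, p.M0, hr.1]
  have r1 : r ≤ b := by linarith [le_abs_self y, abs_nonneg B, hr.2]
  have hM := p.MB.trans hB
  have M0 := p.M0
  have ha := p.aB.trans hB
  have a2 : d.a ^ 2 ≤ b ^ 2 := sq_le_sq' (abs_le.1 ha).1 (abs_le.1 ha).2
  have ho := p.oB.trans hB
  have hm := p.mB.trans hB
  have s1 := abs_le.1 hσ
  have e1 : |2 * r - 2 * d.M| ≤ 2 * b := abs_le.2 ⟨by linarith, by linarith⟩
  refine ⟨abs_le.2 ⟨by rw [De]; nlinarith [sq_nonneg d.a], by rw [De]; nlinarith⟩, by linarith,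
    (norm_sub_le _ _).trans ?_, fun u => (norm_add_le _ _).trans ?_⟩
  · have k : ‖Kf d.a d.om d.m r‖ ≤ b * (b ^ 2 + b ^ 2) + b * b := by
      refine (norm_sub_le _ _).trans ?_
      have : ‖(r : ℂ) ^ 2 + (d.a : ℂ) ^ 2‖ ≤ b ^ 2 + b ^ 2 := by
        refine (norm_add_le _ _).trans ?_
        simp only [norm_pow, Complex.norm_real, Real.norm_eq_abs, abs_of_pos r0]
        gcongr
      simp only [norm_mul, Complex.norm_real, Real.norm_eq_abs]
      gcongr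
    have : |1 - σ| ≤ 5 := abs_le.2 ⟨by linarith, by linarith⟩
    rw [Complex.norm_real, Real.norm_eq_abs, abs_mul, norm_mul, norm_mul, Complex.norm_I,
      Complex.norm_ofNat]
    calc _ ≤ 5 * (2 * b) + 2 * 1 * (b * (b ^ 2 + b ^ 2) + b * b) := by gcongr
      _ ≤ _ := by nlinarith
  · have k : ‖be σ d.om r‖ ≤ 2 * 1 * b * b * 9 + 20 := by
      refine (norm_sub_le _ _).trans ?_
      have : |1 - 2 * σ| ≤ 9 := abs_le.2 ⟨by linarith, by linarith⟩
      have : |σ ^ 2 - σ| ≤ 20 := abs_le.2 ⟨by nlinarith, by nlinarith⟩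
      simp only [norm_mul, Complex.norm_real, Real.norm_eq_abs, abs_of_pos r0, Complex.norm_I,
        Complex.norm_ofNat]
      gcongr
    have := p.B0
    rw [norm_smul]
    calc _ ≤ (2 * 1 * b * b * 9 + 20) * ‖u‖ + b * (2 * b ^ 3 + 4 * b ^ 2) * ‖u‖ :=
          add_le_add (by gcongr) ((Eo_le d.is p u).trans (by gcongr))
      _ = (2 * 1 * b * b * 9 + 20 + b * (2 * b ^ 3 + 4 * b ^ 2)) * ‖u‖ := by ring
      _ ≤ _ := mul_le_mul_of_nonneg_right (by nlinarith) (norm_nonneg _)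

theorem sq_G {S : Type} [NormedAddCommGroup S] {P Z u : S} {K : ℝ} (h : ‖Z‖ ≤ K * ‖u‖) :
    ‖P + Z‖ ^ 2 ≤ 2 * ‖P‖ ^ 2 + 2 * K ^ 2 * ‖u‖ ^ 2 := by
  have := pow_le_pow_left₀ (norm_nonneg _) ((norm_add_le P Z).trans (add_le_add_right h _)) 2
  nlinarith [sq_nonneg (‖P‖ - K * ‖u‖)]

theorem abs_le' {c K q n : ℝ} (h : |c| ≤ K) (h' : |q| ≤ n) : -(K * n) ≤ c * q :=
  (abs_le.1 ((abs_mul c q).trans_le (mul_le_mul h h' (abs_nonneg _)
    ((abs_nonneg _).trans h)))).1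

theorem split {f g : ℝ → ℝ} {C : ℝ} (hf : Continuous f) (hg : Continuous g)
    (h : ∫ r in x..y, (f r - C * g r) ≤ 0) : ∫ r in x..y, f r ≤ C * ∫ r in x..y, g r := by
  rw [integral_sub (hf.intervalIntegrable _ _) ((hg.intervalIntegrable _ _).const_mul _),
    intervalIntegral.integral_const_mul] at h
  linarith

end Vale.Agent.P354XN
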