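import Vale.Agent.P354XN.Op

/-!
The estimates on bounded intervals: red shift at the horizon, elliptic estimate outside.
-/

open scoped ContDiff InnerProductSpace
open Complex (I)
open MeasureTheory Set intervalIntegral Vale.Agent.P354BF

noncomputable section

namespace Vale.Agent.P354XN

variable {B η σ x y r : ℝ}

theorem red_pt {t L K B z n γ P An c a1 a2 a3 a4 : ℝ} (t0 : 0 ≤ t) (t1 : t ≤ L) (K0 : 0 ≤ K)
    (z0 : 0 ≤ z) (n0 : 0 ≤ n) (h1 : a1 ≤ z * γ) (h2 : -(n * γ) ≤ a2) (h3 : a3 ≤ n * (K * z))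
    (h4 : -((2 * L * K + 4 * K + 4 * B ^ 2) * (n * z)) ≤ a4) (h5 : 1 ≤ c)
    (g : γ ^ 2 ≤ 2 * P ^ 2 + 2 * K ^ 2 * n ^ 2) :
    t ^ 2 / 2 * (z ^ 2 + An) - ((L ^ 4 + L ^ 2) * (2 + 2 * K ^ 2) + L ^ 2 +
      (4 * L * K + 4 * K + 4 * B ^ 2) ^ 2 + 2 * B ^ 2) * (n ^ 2 + P ^ 2) ≤
      t ^ 2 * c * z ^ 2 + t ^ 2 / 2 * An - t ^ 3 * a1 + 2 * t ^ 2 * a2 - 2 * t ^ 2 * a3 + t * a4 -
        2 * B ^ 2 * n ^ 2 := by
  have t2 : t ^ 2 ≤ L ^ 2 := by gcongr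
  have t4 : t ^ 4 ≤ L ^ 4 := by gcongr
  have b1 := mul_le_mul_of_nonneg_left h1 (pow_nonneg t0 3)
  have b2 := mul_le_mul_of_nonneg_left h2 (sq_nonneg t)
  have b3 := mul_le_mul_of_nonneg_left h3 (sq_nonneg t)
  have b4 := mul_le_mul_of_nonneg_left h4 t0
  have b5 := mul_le_mul_of_nonneg_left h5 (sq_nonneg (t * z))
  have b6 := mul_le_mul_of_nonneg_right t1 (by positivity : 0 ≤ t * K * n * z)
  have b7 := mul_le_mul_of_nonneg_right (add_le_add t4 t2) (sq_nonneg γ)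
  have b8 := mul_le_mul_of_nonneg_right t2 (sq_nonneg n)
  have b9 := mul_le_mul_of_nonneg_left g (by positivity : 0 ≤ L ^ 4 + L ^ 2)
  have q1 := sq_nonneg (t * z / 2 - t ^ 2 * γ)
  have q2 := sq_nonneg (t * n - t * γ)
  have q3 := sq_nonneg (t * z / 2 - (4 * L * K + 4 * K + 4 * B ^ 2) * n)
  have q4 : 0 ≤ (L ^ 4 + L ^ 2) * (2 * n ^ 2 + 2 * K ^ 2 * P ^ 2) +
    (L ^ 2 + (4 * L * K + 4 * K + 4 * B ^ 2) ^ 2 + 2 * B ^ 2) * P ^ 2 := by positivity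
  linarith

theorem bd3 {S : Type} [NormedAddCommGroup S] [InnerProductSpace ℂ S] {α : ℂ} {K : ℝ}
    (h : ‖α‖ ≤ K) (u z : S) : ri u (α • z) ≤ ‖u‖ * (K * ‖z‖) :=
  (ri_le _ _).trans (mul_le_mul_of_nonneg_left ((norm_smul_le _ _).trans
    (mul_le_mul_of_nonneg_right h (norm_nonneg _))) (norm_nonneg _))

theorem shrink {f : ℝ → ℝ} {φ : ℝ → ℝ} {x' y' c : ℝ} (hf : Continuous f) (hφ : Continuous φ)
    (f0 : ∀ r, 0 ≤ f r) (φ0 : ∀ r, 0 ≤ φ r) (h1 : x ≤ x') (h2 : x' ≤ y') (h3 : y' ≤ y)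
    (h : ∀ r ∈ Icc x' y', c ≤ φ r) : c * ∫ r in x'..y', f r ≤ ∫ r in x..y, φ r * f r := by
  refine le_trans ?_ (int_sub (φ := fun r => φ r * f r) (by fun_prop)
    (fun r _ => mul_nonneg (φ0 r) (f0 r)) h1 h2 h3)
  rw [← intervalIntegral.integral_const_mul]
  exact integral_mono_on h2 (Continuous.intervalIntegrable (by fun_prop) _ _)
    (Continuous.intervalIntegrable (by fun_prop) _ _) fun r hr =>
      mul_le_mul_of_nonneg_right (h r hr) (f0 r)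

/-- The red shift estimate. -/
theorem red (hη : 0 < η) (h1 : -4 ≤ σ) (h2 : σ ≤ 0) (hy : (4 * B ^ 2 + 1) / η + 2 * B ≤ y) :
    Le (fun d : Dt B η => ∫ r in d.r0..y, (‖deriv d.v r‖ ^ 2 + An d.A (d.v r)))
      fun d => ∫ r in d.r0..y + 1, (‖d.v r‖ ^ 2 + ‖d.P σ r‖ ^ 2) := by
  obtain ⟨K, K1, hK⟩ := bd (B := B) hη (y + 1)
  obtain ⟨L, hL⟩ : ∃ L, L = y + 1 := ⟨_, rfl⟩
  rw [← hL] at hK ⊢
  obtain ⟨C, hC⟩ : ∃ C, C = (L ^ 4 + L ^ 2) * (2 + 2 * K ^ 2) + L ^ 2 +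
    (4 * L * K + 4 * K + 4 * B ^ 2) ^ 2 + 2 * B ^ 2 := ⟨_, rfl⟩
  refine ⟨2 * C, by rw [hC]; positivity, fun d => ?_⟩
  have p := d.par
  have T0 : 0 < (4 * B ^ 2 + 1) / η := by positivity
  have r1 : d.r0 ≤ y := by linarith [p.r0_le]
  have c0 := d.sm.cont
  have c1 := (d.is.sm_deriv d.sm).cont
  have c2 := cont_An d.sm
  have c3 := (d.smP σ).cont
  have key := int_le (r1.trans (by linarith : y ≤ L)) (φ := fun r => (L - r) ^ 2 / 2 *
      (‖deriv d.v r‖ ^ 2 + An d.A (d.v r)) - C * (‖d.v r‖ ^ 2 + ‖d.P σ r‖ ^ 2)) (by fun_prop)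
    fun r hr => by
      have t := (hasDerivAt_id' r).const_sub L
      refine ⟨_, cur d.is d.sm d.M d.a (t.fun_pow 3) (t.const_mul (2 * B ^ 2))
        ((t.fun_pow 2).const_mul 2) _ (P_eq d.A σ d.k d.M d.a d.om d.m d.v r), ?_⟩
      obtain ⟨k1, k2, k3, k4⟩ := hK d σ (abs_le.2 ⟨h1, by linarith⟩) r hr
      have e := al_re σ d.M d.a d.om d.m r
      have t0 : 0 ≤ L - r := sub_nonneg.2 hr.2
      have m1 : η ≤ r - d.M := by linarith [p.lo, hr.1]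
      have t1 : L - r ≤ L := by linarith [p.M0]
      have a4 := abs_le' (c := -4 * De d.M d.a r + 2 * (L - r) * (2 * r - 2 * d.M) + 4 * B ^ 2)
        (K := 2 * L * K + 4 * K + 4 * B ^ 2) (by
          have := abs_le.1 k1
          have := abs_le.1 ((abs_mul (L - r) _).trans_le (mul_le_mul
            ((abs_of_nonneg t0).trans_le t1) k2 (abs_nonneg _) (t0.trans t1)))
          exact abs_le.2 ⟨by nlinarith [sq_nonneg B], by nlinarith⟩) (abs_ri (d.v r) (deriv d.v r))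
      have a5 : 1 ≤ (L - r) * ((al σ d.M d.a d.om d.m r).re - (r - d.M)) + 7 / 2 * De d.M d.a r := by
        have : r - d.M ≤ (al σ d.M d.a d.om d.m r).re - (r - d.M) := by
          nlinarith [p.im, mul_nonneg p.im (add_nonneg (sq_nonneg r) (sq_nonneg d.a))]
        have q := mul_le_mul_of_nonneg_left (m1.trans this) t0
        rcases le_total ((4 * B ^ 2 + 1) / η) (L - r) with c | c
        · rw [div_le_iff₀ hη] at c
          nlinarith [p.De_ge r]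
        · nlinarith [p.one_le (r := r) (by linarith), mul_nonneg t0 hη.le]
      rw [hC]
      refine (red_pt t0 t1 (by linarith) (norm_nonneg _) (norm_nonneg _) (ri_le _ _) (le_ri _ _)
        (bd3 k3 _ _) a4 a5 (sq_G (k4 (d.v r)))).trans_eq ?_
      simp only [Nat.cast_ofNat, Nat.add_one_sub_one, pow_one]
      ring
  have end0 : ∫ r in d.r0..L, ((L - r) ^ 2 / 2 * (‖deriv d.v r‖ ^ 2 + An d.A (d.v r)) -
      C * (‖d.v r‖ ^ 2 + ‖d.P σ r‖ ^ 2)) ≤ 0 := by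
    refine key.trans ?_
    simp only [sub_self]
    have t0 : 0 ≤ L - d.r0 := by linarith
    have a := abs_le.1 (abs_ri (d.v d.r0) (deriv d.v d.r0))
    have b := mul_nonneg (pow_nonneg t0 3) (An_nonneg (A := d.A) (d.v d.r0))
    have c := mul_nonneg (mul_nonneg t0 (neg_nonneg.2 p.hi))
      (sq_nonneg ((L - d.r0) * ‖deriv d.v d.r0‖ - 2 * ‖d.v d.r0‖))
    have e := mul_le_mul_of_nonneg_left a.2 (mul_nonneg (sq_nonneg (L - d.r0)) (neg_nonneg.2 p.hi))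
    have f := mul_le_mul_of_nonneg_left (p.De_ge d.r0) (mul_nonneg t0 (sq_nonneg ‖d.v d.r0‖))
    linarith
  have e1 := split (by fun_prop) (by fun_prop) end0
  have e2 := shrink (f := fun r => ‖deriv d.v r‖ ^ 2 + An d.A (d.v r)) (c := 1 / 2)
    (φ := fun r => (L - r) ^ 2 / 2) (by fun_prop) (by fun_prop)
    (fun r => add_nonneg (sq_nonneg _) (An_nonneg _)) (fun r => by positivity) le_rfl r1
    (by linarith : y ≤ L) fun r hr => by nlinarith [hr.2]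
  linarith

theorem mid_pt {t L K z n γ P An c a2 a3 a4 : ℝ} (t0 : 0 ≤ t) (t1 : t ≤ L) (K0 : 0 ≤ K)
    (z0 : 0 ≤ z) (n0 : 0 ≤ n) (A0 : 0 ≤ An) (h2 : -(n * γ) ≤ a2) (h3 : a3 ≤ n * (K * z))
    (h4 : -(3 * L * K * (n * z)) ≤ a4) (h5 : 1 ≤ c) (g : γ ^ 2 ≤ 2 * P ^ 2 + 2 * K ^ 2 * n ^ 2) :
    t ^ 2 / 2 * z ^ 2 - L ^ 2 * (3 + 10 * K ^ 2) * (n ^ 2 + P ^ 2) ≤
      t ^ 2 * c * z ^ 2 + t ^ 2 * An + t ^ 2 * a2 - t ^ 2 * a3 + t * a4 := by
  have t2 : t ^ 2 ≤ L ^ 2 := by gcongr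
  have b2 := mul_le_mul_of_nonneg_left h2 (sq_nonneg t)
  have b3 := mul_le_mul_of_nonneg_left h3 (sq_nonneg t)
  have b4 := mul_le_mul_of_nonneg_left h4 t0
  have b5 := mul_le_mul_of_nonneg_left h5 (sq_nonneg (t * z))
  have b6 := mul_le_mul_of_nonneg_right t1 (by positivity : 0 ≤ t * K * n * z)
  have b7 := mul_le_mul_of_nonneg_right t2 (sq_nonneg γ)
  have b8 := mul_le_mul_of_nonneg_right t2 (sq_nonneg n)
  have b9 := mul_le_mul_of_nonneg_left g (sq_nonneg L)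
  have q1 := mul_nonneg (sq_nonneg t) A0
  have q2 := sq_nonneg (t * n - t * γ)
  have q3 := sq_nonneg (t * z - 4 * L * K * n)
  have q4 : 0 ≤ L ^ 2 * (n ^ 2 + P ^ 2 + K ^ 2 * P ^ 2 + K ^ 2 * n ^ 2) := by positivity
  have q5 : 0 ≤ L ^ 2 * K ^ 2 * P ^ 2 := by positivity
  have q6 : 0 ≤ L ^ 2 * P ^ 2 := by positivity
  have q7 : 0 ≤ L ^ 2 * n ^ 2 := by positivity
  have q8 : 0 ≤ L ^ 2 * K ^ 2 * n ^ 2 := by positivity
  linarith

/-- The elliptic estimate outside the horizon. -/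
theorem mid (hη : 0 < η) (hσ : |σ| ≤ 4) (hx : 2 * B + 1 ≤ x) :
    Le (fun d : Dt B η => ∫ r in x + 1..x + 2, ‖deriv d.v r‖ ^ 2)
      fun d => ∫ r in x..x + 3, (‖d.v r‖ ^ 2 + ‖d.P σ r‖ ^ 2) := by
  obtain ⟨K, K1, hK⟩ := bd (B := B) hη (x + 3)
  refine ⟨2 * (9 ^ 2 * (3 + 10 * K ^ 2)), by positivity, fun d => ?_⟩
  have p := d.par
  have c0 := d.sm.cont
  have c1 := (d.is.sm_deriv d.sm).cont
  have c3 := (d.smP σ).cont
  have key := int_le (by linarith : x ≤ x + 3) (φ := fun r => ((r - x) * (x + 3 - r)) ^ 2 / 2 *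
      ‖deriv d.v r‖ ^ 2 - 9 ^ 2 * (3 + 10 * K ^ 2) * (‖d.v r‖ ^ 2 + ‖d.P σ r‖ ^ 2)) (by fun_prop)
    fun r hr => by
      have t := ((hasDerivAt_id' r).sub_const x).fun_mul ((hasDerivAt_id' r).const_sub (x + 3))
      refine ⟨_, cur d.is d.sm d.M d.a (hasDerivAt_const r (0 : ℝ)) (hasDerivAt_const r (0 : ℝ))
        (t.fun_pow 2) _ (P_eq d.A σ d.k d.M d.a d.om d.m d.v r), ?_⟩
      obtain ⟨k1, k2, k3, k4⟩ := hK d σ hσ r ⟨by linarith [p.r0_le, hr.1], hr.2⟩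
      have h1 := hr.1
      have h2 := hr.2
      have t0 : 0 ≤ (r - x) * (x + 3 - r) := mul_nonneg (by linarith) (by linarith)
      have t1 : (r - x) * (x + 3 - r) ≤ 9 := by nlinarith
      have a4 := abs_le' (c := 2 * (2 * x + 3 - 2 * r) * De d.M d.a r +
          (r - x) * (x + 3 - r) * (2 * r - 2 * d.M)) (K := 3 * 9 * K) (by
          have := abs_le.1 ((abs_mul (2 * x + 3 - 2 * r) _).trans_le (mul_le_mul
            (abs_le.2 ⟨by linarith, by linarith⟩ : _ ≤ (3 : ℝ)) k1 (abs_nonneg _) (by norm_num)))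
          have := abs_le.1 ((abs_mul _ _).trans_le (mul_le_mul
            ((abs_of_nonneg t0).trans_le t1) k2 (abs_nonneg _) (by norm_num)))
          exact abs_le.2 ⟨by linarith, by linarith⟩) (abs_ri (d.v r) (deriv d.v r))
      refine (mid_pt t0 t1 (by linarith) (norm_nonneg _) (norm_nonneg _)
        (An_nonneg (A := d.A) (d.v r)) (le_ri _ _)
        (bd3 k3 _ _) a4 (p.one_le (r := r) (by linarith)) (sq_G (k4 (d.v r)))).trans_eq ?_
      simp only [Nat.cast_ofNat, Nat.add_one_sub_one, pow_one]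
      ring
  have e1 := split (by fun_prop) (by fun_prop) (key.trans (by simp))
  have e2 := shrink (f := fun r => ‖deriv d.v r‖ ^ 2) (c := 1 / 2)
    (φ := fun r => ((r - x) * (x + 3 - r)) ^ 2 / 2) (by fun_prop) (by fun_prop)
    (fun r => sq_nonneg _) (fun r => by positivity) (by linarith : x ≤ x + 1)
    (by linarith : x + 1 ≤ x + 2) (by linarith : x + 2 ≤ x + 3) fun r hr => by
      have : 1 ≤ (r - x) * (x + 3 - r) := by nlinarith [hr.1, hr.2]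
      nlinarith
  linarith

end Vale.Agent.P354XN
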